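import Vale.Agent.P218TP.RJ2
import Vale.Agent.P218EN.Cyl

/-! # Transport and boundary defect in the standard class -/

open Set Complex

namespace Vale.Agent.P218TP

open P218EN

/-- bound for the standard weight on `[W / 32, W]` -/
noncomputable def omW (a0 W : ℝ) : ℝ := (√a0)⁻¹ * (256 * a0 / W) ^ (7 / 8 : ℝ)

theorem one_le_cT : 1 ≤ cT := by
  have : (0 : ℝ) ≤ P218E2.bd2 Ex.exN + P218E2.bd2 Ex.exD := by positivity
  rw [cT]
  linarith

theorem omW_sq {a0 W : ℝ} (h : 1 ≤ a0) (hW : 1 ≤ W) : omW a0 W ^ 2 * W ≤ 65536 * a0 * (√W)⁻¹ := by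
  have h1 : (256 * a0) ^ (7 / 4 : ℝ) ≤ (256 * a0) ^ (2 : ℝ) :=
    Real.rpow_le_rpow_of_exponent_le (by linarith) (by norm_num)
  have h2 : W ^ (3 / 2 : ℝ) ≤ W ^ (7 / 4 : ℝ) := Real.rpow_le_rpow_of_exponent_le hW (by norm_num)
  have h3 : W ^ (3 / 2 : ℝ) = W * √W := by
    rw [Real.sqrt_eq_rpow, ← Real.rpow_one_add' (by linarith) (by norm_num)]
    norm_num
  have h4 : 0 < √W := Real.sqrt_pos.2 (by linarith)
  rw [omW, mul_pow, inv_pow, Real.sq_sqrt (by linarith), ← Real.rpow_natCast,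
    ← Real.rpow_mul (by positivity), Real.div_rpow (by positivity) (by positivity),
    show (7 / 8 : ℝ) * (2 : ℕ) = 7 / 4 by norm_num]
  calc _ ≤ a0⁻¹ * ((256 * a0) ^ (2 : ℝ) / W ^ (3 / 2 : ℝ)) * W := by gcongr
    _ = _ := by
      rw [h3, Real.rpow_two]
      field_simp
      norm_num

variable {a0 s a W K c : ℝ} {α : ℂ} {J : Fin 6 → WA} {f ξ γ : WA}

theorem RJ.of_sol (hR : Rg a0 s W α) (hD : α ∈ P218CH.D W K) (hK : 4000000 ≤ K) (hs : s ≤ a)
    (h1 : a ≤ W) (h2 : W ≤ 32 * a) (h : Sol s W α J f ξ γ) (hf : ∀ k, ∀ w ∈ Icc a W, f.co k w = 0)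
    (hJ : ∀ i, Bd (Icc a W) (sg a0 α) (om a0 α) (J i) 1) :
    RJ a W α J (omW a0 W) ‖γ.co 0 W‖ := by
  have hb := hR.big
  have h0 := hR.le0
  have hsub : Icc a W ⊆ Icc s W := Icc_subset_Icc_left hs
  have hp := hR.pt (right_mem_Icc.2 hR.le)
  have hW : (0 : ℝ) < W := hp.w_pos
  refine ⟨h1, h2, by linarith, P218CH.D_anti hW hK hD, h.jet.mono hsub, fun w hw θ => ?_,
    by unfold omW; positivity, ?_, fun i => (hJ i).weaken' (fun w hw => ?_) fun w hw => ?_,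
    (congrArg norm (h.bc 0 W rfl)).le⟩
  · have hne : ∀ u ∈ Icc s W, (u : ℂ) ≠ 0 := fun u hu => ofReal_ne_zero.2 (hR.pt hu).w_pos.ne'
    rw [← ev_EE hR.coef.cA (ContinuousOn.inv₀ (by fun_prop) fun u hu => by simp [hne u hu])
      (ContinuousOn.div (by fun_prop) (by fun_prop) fun u hu => by simp [hne u hu])
      hR.coef.cont_sqrt J (hsub hw) θ, wEq_iff.1 h.eq w (hsub hw) θ,
      wEq_iff.1 (show WEq (Icc a W) f 0 from hf) w hw θ, WA.ev_zero]
  · have h3 : (256 * a0 / W) ^ (7 / 8 : ℝ) ≤ 256 ^ (1 : ℝ) :=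
      (Real.rpow_le_rpow (by positivity) (by rw [div_le_iff₀ hW]; linarith)
        (by norm_num)).trans (Real.rpow_le_rpow_of_exponent_le (by norm_num) (by norm_num))
    rw [Real.rpow_one] at h3
    rw [omW, inv_mul_le_iff₀ hp.s_pos]
    linarith [hp.s_ge]
  · have hq := hR.pt (hsub hw)
    rw [sg, div_eq_mul_inv]
    exact mul_le_mul_of_nonneg_left (by linarith [hq.om_add_le, hR.ep_small]) hq.dl_pos.le
  · have hq := hR.pt (hsub hw)
    have h3 : w⁻¹ ≤ 32 / W := by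
      rw [inv_eq_one_div, div_le_div_iff₀ hq.w_pos hW]
      linarith [hw.1]
    have h4 := hq.tau_pos
    unfold om omW
    gcongr
    calc a0 * tau α w ≤ a0 * (8 * (32 / W)) := by gcongr; linarith [hq.tau_le]
      _ = _ := by ring

/-- **transport**, standard class -/
theorem transport_std (hR : Rg a0 s W α) (hD : α ∈ P218CH.D W K) (hK : 4000000 ≤ K) (hs : s ≤ c)
    (h1 : 2 * c ≤ W) (h2 : W ≤ 32 * c) (h : Sol s W α J f ξ γ)
    (hf : ∀ k, ∀ w ∈ Icc c W, f.co k w = 0) (hJ : ∀ i, Bd (Icc c W) (sg a0 α) (om a0 α) (J i) 1) :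
    ‖GG c (rpin α J c) - GG W (rpin α J W)‖
      ≤ cT * (70000 * a0 * (√W)⁻¹ + ‖γ.co 0 W‖) / W ^ 2 := by
  have hb := hR.big
  have h0 := hR.le0
  have hr := RJ.of_sol hR hD hK hs (by linarith) h2 h hf hJ
  refine (hr.transport ⟨le_rfl, by linarith⟩).trans ?_
  have h3 := omW_sq (a0 := a0) (W := W) (by linarith) (by linarith)
  have h4 : 0 ≤ (√W)⁻¹ := by positivity
  have := one_le_cT
  gcongr
  nlinarith

/-- **boundary defect of the restriction**, standard class -/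
theorem bc_std (hR : Rg a0 s W α) (hD : α ∈ P218CH.D W K) (hK : 4000000 ≤ K) (hs : s ≤ c)
    (h1 : 2 * c ≤ W) (h2 : W ≤ 32 * c) (h : Sol s W α J f ξ γ)
    (hf : ∀ k, ∀ w ∈ Icc c W, f.co k w = 0) (hJ : ∀ i, Bd (Icc c W) (sg a0 α) (om a0 α) (J i) 1) :
    ‖(BB c α J).co 0 c‖ ≤ cT * (70000 * a0 / W + ‖γ.co 0 W‖) := by
  have hb := hR.big
  have h0 := hR.le0
  have hr := RJ.of_sol hR hD hK hs (by linarith) h2 h hf hJ
  have hc : c ∈ Icc c W := ⟨le_rfl, by linarith⟩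
  have hW : 1 ≤ W := by linarith
  have hq := hR.pt ⟨hs, hc.2⟩
  refine (hr.bc_le hc).trans (mul_le_mul_of_nonneg_left ?_ (by linarith [one_le_cT]))
  have h3 := omW_sq (a0 := a0) (W := W) (by linarith) hW
  have h4 : (√W)⁻¹ ≤ 1 := inv_le_one_of_one_le₀ (Real.one_le_sqrt.2 hW)
  have h5 : omW a0 W ^ 2 ≤ 65536 * a0 / W := by
    rw [le_div_iff₀ (by linarith)]
    nlinarith
  have h6 : ‖Af α c‖ ≤ 32 / W := by
    obtain ⟨g, ρ, hr'⟩ := hr.rad
    have e1 := (m0_facts (by norm_num) hr'.dom hq.w_pos hc.2).2.2.2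
    have e2 : c / W ≤ 1 / 2 := by rw [div_le_iff₀ (by linarith)]; linarith
    have e3 : 0 ≤ c / W * (1000000 / W) := by have := hq.w_pos; positivity
    rw [Af, norm_inv, inv_eq_one_div, div_le_div_iff₀ (norm_pos_iff.2 (mul_ne_zero (mul_ne_zero
      two_ne_zero (hr.lv0 hc).w_ne) hq.ne)) (by linarith)]
    change _ ≤ 32 * ‖m0 α c‖
    nlinarith [Complex.re_le_norm (m0 α c), hq.w_pos]
  have h7 : Real.exp ((c - W) / 2) ≤ 1 := Real.exp_le_one_iff.2 (by linarith)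
  have h8 := mul_le_of_le_one_right (add_nonneg (norm_nonneg (Af α c)) (norm_nonneg (γ.co 0 W))) h7
  have h9 : ‖Af α c‖ ≤ 1 := (hr.lv0 hc).A_le.trans (by norm_num)
  have h10 : 32 / W ≤ 32 * a0 / W := by gcongr; linarith
  have h11 : 0 ≤ a0 / W := by positivity
  rw [mul_div_assoc] at h5 h10 ⊢
  nlinarith [norm_nonneg (Af α c)]

end Vale.Agent.P218TP
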