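import Vale.Agent.P218TP.Rad2

/-! # The transport estimate for the tip function -/

open Set Metric Filter Topology Complex

namespace Vale.Agent.P218TP

open P218IN

theorem arith {ν N t u r x y δ E ρ0 y0 eV eY : ℝ} (hν : 0 < ν) (hνN : ν ≤ N) (ht : 0 < t)
    (htu : t ≤ 64 * u) (hu1 : u ≤ 1) (hE0 : 0 ≤ E) (hEu : E ≤ u) (hx : 0 ≤ x) (hxt : x * t ≤ 2)
    (hxν : x * ν ≤ 32) (hy0 : 0 ≤ y) (hy1 : y ≤ 1 / 400) (hρ : 0 ≤ ρ0) (hy : 0 ≤ y0)
    (h5 : y ≤ 1000 * t + 2 * ρ0 + y0 * E)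
    (h6 : δ ≤ 100000 * t ^ 2 + 4 * ρ0 + (1200 * t + y0) * E) (hV0 : 0 ≤ eV)
    (h7 : x * eV ≤ 64 * u * (x * y / 40 + 150)) (hr : 0 < r) (hr1 : r ≤ 1 / 500) (hru : r ≤ 2 * u)
    (hN : N = 32 * r ^ 2) (h8 : x * eY * r ≤ 10 * (x * y ^ 2) + 10 * (x * r ^ 2) + 76) :
    9 * (x * ν) * (δ + 5 * t * y) + ν * (2 * y + 135 * t) + 289 * (2 * (x * ν) * eV
      + x * ν ^ 2 * (y + 2 * t + 2 * ν + eV + eY) + 51 * ρ0)
      ≤ 10 ^ 9 * (N * u + ρ0 + y0 * E) := by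
  have hu : 0 < u := by linarith
  have hP : 0 ≤ y0 * E := by positivity
  have hNr : N ≤ r := by nlinarith
  have hν1 : ν ≤ 1 := by linarith
  have a0 : ν * u ≤ N * u := by gcongr
  set P := y0 * E with hPd
  set Q := N * u with hQ
  have hQ0 : 0 ≤ Q := by nlinarith
  have a1 : ν * t ≤ 64 * Q := by nlinarith
  have a2 : ν * E ≤ Q := by nlinarith
  have a3 : ν * r ≤ 2 * Q := by nlinarith
  have a4 : ν ^ 2 ≤ 2 * Q := by nlinarith
  have a5 : ν * y ≤ 64000 * Q + 2 * ρ0 + P := by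
    have := mul_le_mul_of_nonneg_left h5 hν.le
    nlinarith [mul_le_of_le_one_left hρ hν1, mul_le_of_le_one_left hP hν1]
  have a6 : x * ν * y ≤ 2000 * ν + 64 * ρ0 + 32 * P := by
    have h1 := mul_le_mul_of_nonneg_left h5 (mul_nonneg hx hν.le)
    have h2 := mul_le_mul_of_nonneg_right hxt hν.le
    have h3 := mul_le_mul_of_nonneg_right hxν hρ
    have h4 := mul_le_mul_of_nonneg_right hxν hP
    linarith
  have a7 : x * ν * δ ≤ 13000000 * Q + 128 * ρ0 + 32 * P := by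
    have h1 := mul_le_mul_of_nonneg_left h6 (mul_nonneg hx hν.le)
    have h2 := mul_le_mul_of_nonneg_right hxt (mul_nonneg hν.le ht.le)
    have h3 := mul_le_mul_of_nonneg_right hxν hρ
    have h4 := mul_le_mul_of_nonneg_right hxν hP
    have h9 := mul_le_mul_of_nonneg_right hxt (mul_nonneg hν.le hE0)
    rw [hPd] at h4 ⊢
    linarith
  have a8 : x * ν * (t * y) ≤ 2 * (ν * y) := by
    have := mul_le_mul_of_nonneg_right hxt (mul_nonneg hν.le hy0)
    linarith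
  have a9 : x * ν * eV ≤ 12800 * Q + 103 * ρ0 + 52 * P := by
    have h1 := mul_le_mul_of_nonneg_left h7 hν.le
    have h2 := mul_le_mul_of_nonneg_left a6 hu.le
    have h3 := mul_le_of_le_one_left hρ hu1
    have h4 := mul_le_of_le_one_left hP hu1
    linarith
  have b1 : x * ν ^ 2 * y ≤ 32 * (ν * y) := by
    have := mul_le_mul_of_nonneg_right hxν (mul_nonneg hν.le hy0)
    linarith
  have b2 : x * ν ^ 2 * t ≤ 2 * ν ^ 2 := by
    have := mul_le_mul_of_nonneg_right hxt (sq_nonneg ν)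
    linarith
  have b3 : x * ν ^ 2 * ν ≤ 32 * ν ^ 2 := by
    have := mul_le_mul_of_nonneg_right hxν (sq_nonneg ν)
    linarith
  have b4 : x * ν ^ 2 * eV ≤ x * ν * eV := by
    have := mul_le_of_le_one_left (show 0 ≤ x * ν * eV by positivity) hν1
    linarith
  have b5 : x * ν ^ 2 * eY ≤ 10000 * Q + 64 * ρ0 + 32 * P := by
    refine le_of_mul_le_mul_right ?_ hr
    have h1 := mul_le_mul_of_nonneg_left h8 (sq_nonneg ν)
    have h2 : ν ≤ 32 * r ^ 2 := by linarith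
    have c1 : ν ^ 2 * (x * y ^ 2) ≤ (32 * r ^ 2) * (1 / 400) * (x * ν * y) := by
      calc ν ^ 2 * (x * y ^ 2) = ν * y * (x * ν * y) := by ring
        _ ≤ _ := by gcongr
    have c2 : r ^ 2 * (x * ν * y) ≤ r * (4000 * Q + 64 * ρ0 + 32 * P) := by
      have d1 := mul_le_mul_of_nonneg_left a6 hr.le
      have d2 : r * ρ0 ≤ ρ0 := mul_le_of_le_one_left hρ (by linarith)
      have d3 : r * P ≤ P := mul_le_of_le_one_left hP (by linarith)
      calc r ^ 2 * (x * ν * y) = r * (r * (x * ν * y)) := by ring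
        _ ≤ _ := by gcongr; linarith
    have c3 : ν ^ 2 * (x * r ^ 2) ≤ r * (64 * Q) := by
      calc ν ^ 2 * (x * r ^ 2) = r * (x * ν * (ν * r)) := by ring
        _ ≤ r * (32 * (2 * Q)) := by gcongr
        _ = _ := by ring
    have c4 : ν ^ 2 ≤ r * (64 * Q) := by
      calc ν ^ 2 = ν * ν := by ring
        _ ≤ ν * (32 * r ^ 2) := by gcongr
        _ = r * (32 * (ν * r)) := by ring
        _ ≤ r * (32 * (2 * Q)) := by gcongr
        _ = _ := by ring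
    have c5 : 0 ≤ r * Q := by positivity
    have c6 : 0 ≤ r * ρ0 := by positivity
    have c7 : 0 ≤ r * P := by positivity
    linarith
  linarith

variable {a W : ℝ} {α : ℂ} {V Y γ ρ : ℝ → ℂ} {ρ0 y0 : ℝ}

theorem Rad.u_facts (h : Rad a W α V Y γ ρ ρ0 y0) {w : ℝ} (hw : w ∈ Icc a W) :
    (mw α W w)⁻¹ ≤ 64 * (√(W - w + 1))⁻¹ ∧ (√(W - w + 1))⁻¹ ≤ 1 ∧
      Real.exp ((w - W) / 2) ≤ (√(W - w + 1))⁻¹ ∧ (√W)⁻¹ ≤ 2 * (√(W - w + 1))⁻¹ ∧
      2 * (V w).re⁻¹ ≤ 64 * (√(W - w + 1))⁻¹ ∧ w⁻¹ ≤ 32 / W := by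
  obtain ⟨h1, h2, -, h4⟩ := h.geo hw
  have hW := h.W_gt
  have hw0 := h.w_gt hw
  have d1 : 1 ≤ W - w + 1 := by linarith [hw.2]
  have s1 : 1 ≤ √(W - w + 1) := Real.one_le_sqrt.2 d1
  have s2 : √(W - w + 1) ≤ W - w + 1 := by nlinarith [Real.sq_sqrt (show 0 ≤ W - w + 1 by linarith)]
  have h5 := Complex.re_le_norm (V w)
  refine ⟨?_, inv_le_one_of_one_le₀ s1, ?_, ?_, ?_, ?_⟩
  · rw [← div_eq_mul_inv, inv_eq_one_div, div_le_div_iff₀ (by linarith) (by linarith)]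
    linarith
  · rw [le_inv_comm₀ (Real.exp_pos _) (by linarith), ← Real.exp_neg, Real.sqrt_le_left
      (Real.exp_pos _).le, ← Real.exp_nat_mul]
    refine (Real.add_one_le_exp _).trans (le_of_eq ?_)
    congr 1
    push_cast
    ring
  · have s3 : 0 < √W := Real.sqrt_pos.2 (by linarith)
    rw [← div_eq_mul_inv, inv_eq_one_div, div_le_div_iff₀ s3 (by linarith), one_mul,
      Real.sqrt_le_left (by positivity), mul_pow, Real.sq_sqrt (by linarith)]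
    linarith
  · rw [← div_eq_mul_inv, ← div_eq_mul_inv, div_le_div_iff₀ (by linarith) (by linarith)]
    linarith
  · rw [inv_eq_one_div, div_le_div_iff₀ (by linarith) (by linarith)]
    linarith [hw.1, h.ge]

theorem Rad.Num_le (h : Rad a W α V Y γ ρ ρ0 y0) {w : ℝ} (hw : w ∈ Icc a W) :
    ‖Num w (V w) (Y w) (γ w) (ρ w) / Xi w (V w) (Y w) ^ 2‖ ≤ 2 * 10 ^ 9 * (32 / W) ^ 2 *
      (32 / W * (√(W - w + 1))⁻¹ + ρ0 + y0 * Real.exp ((w - W) / 2)) := by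
  have hp := h.pw hw
  have hW := h.W_gt
  have hw0 := hp.w_gt
  obtain ⟨u1, u2, u3, u4, u5, u6⟩ := h.u_facts hw
  have s3 : 500 ≤ √W := by
    rw [Real.le_sqrt (by norm_num) (by linarith)]
    linarith
  have hr : 0 < (√W)⁻¹ := by positivity
  have hr1 : (√W)⁻¹ ≤ 1 / 500 := by
    rw [one_div]
    exact inv_anti₀ (by norm_num) s3
  have hx : 800 < ‖V w‖ := hp.re.trans_le (Complex.re_le_norm _)
  have hre := hp.re
  have h7 : ‖V w‖ * ‖fderiv ℂ EE (V w, Y w) (1, 0)‖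
      ≤ 64 * (√(W - w + 1))⁻¹ * (‖V w‖ * ‖Y w - 1‖ / 40 + 150) := by
    have h1 := norm_fderiv_EE_fst hp.om (R := (V w).re / 2) (by linarith) (by simp only; linarith)
    have h2 : (‖V w‖ - (V w).re / 2)⁻¹ ≤ (‖V w‖ / 2)⁻¹ :=
      inv_anti₀ (by linarith) (by linarith [Complex.re_le_norm (V w)])
    simp only at h1
    calc ‖V w‖ * ‖fderiv ℂ EE (V w, Y w) (1, 0)‖
        ≤ ‖V w‖ * ((‖Y w - 1‖ / 40 + 75 * (‖V w‖ / 2)⁻¹) / ((V w).re / 2)) := by
          gcongr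
          refine h1.trans ?_
          gcongr
      _ = 2 * (V w).re⁻¹ * (‖V w‖ * ‖Y w - 1‖ / 40 + 150) := by field_simp; ring
      _ ≤ _ := by gcongr
  have h8 : ‖V w‖ * ‖fderiv ℂ EE (V w, Y w) (0, 1)‖ * (√W)⁻¹
      ≤ 10 * (‖V w‖ * ‖Y w - 1‖ ^ 2) + 10 * (‖V w‖ * (√W)⁻¹ ^ 2) + 76 := by
    have h1 := norm_fderiv_EE_snd2 hp.om hp.y_le hr hr1
    rw [le_div_iff₀ hr] at h1
    simp only at h1
    have h2 := mul_le_mul_of_nonneg_left h1 (norm_nonneg (V w))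
    have h3 : ‖V w‖ * ‖V w‖⁻¹ = 1 := mul_inv_cancel₀ (by linarith)
    linarith
  have key := arith (N := 32 / W) (by positivity) u6 hp.t_pos u1 u2 (Real.exp_pos _).le u3
    (norm_nonneg _) hp.le_inv hp.Vnu (norm_nonneg _) hp.y_le h.rho_nonneg h.y0_nonneg (h.y_le hw)
    (h.delta_le hw) (norm_nonneg _) h7 hr hr1 u4
    (by rw [inv_pow, Real.sq_sqrt (by linarith), div_eq_mul_inv]) h8
  have k1 := hp.Num_le (ρ w)
  have k2 := hp.TT_le (ρ w)
  have k3 := h.rho w hw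
  have hX0 : 0 ≤ 32 / W * (√(W - w + 1))⁻¹ + ρ0 + y0 * Real.exp ((w - W) / 2) := by
    have := h.rho_nonneg
    have := h.y0_nonneg
    positivity
  set X := 32 / W * (√(W - w + 1))⁻¹ + ρ0 + y0 * Real.exp ((w - W) / 2)
  have k4 : ‖Num w (V w) (Y w) (γ w) (ρ w)‖ ≤ (32 / W) ^ 2 * (10 ^ 9 * X) := by
    refine k1.trans (mul_le_mul (by gcongr) (by linarith) ?_ (by positivity))
    have := hp.t_pos
    positivity
  have k5 : (3 / 4 : ℝ) ^ 2 ≤ ‖Xi w (V w) (Y w)‖ ^ 2 := by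
    gcongr
    exact hp.Xi_ge
  rw [norm_div, norm_pow, div_le_iff₀ (by linarith)]
  have k6 : 0 ≤ (32 / W) ^ 2 * (10 ^ 9 * X) := by positivity
  nlinarith

/-- **Transport of the tip function.** -/
theorem Rad.transport (h : Rad a W α V Y γ ρ ρ0 y0) {w : ℝ} (hw : w ∈ Icc a W) :
    ‖gT W (V W) (Y W) - gT w (V w) (Y w)‖ ≤ 10 ^ 15 * ((√W)⁻¹ + ρ0 * W + y0) / W ^ 2 := by
  have hW := h.W_gt
  have hw0 := h.w_gt hw
  have hsub : Icc w W ⊆ Icc a W := Icc_subset_Icc_left hw.1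
  have hI : ∀ u ∈ Ico w W, Icc a W ∈ 𝓝[Ici u] u := fun u hu =>
    Icc_mem_nhdsGE_of_mem ⟨hw.1.trans hu.1, hu.2⟩
  set C := 2 * 10 ^ 9 * (32 / W) ^ 2 with hC
  have hB : ∀ u ∈ Icc w W, HasDerivAt (fun u => C * (32 / W * (2 * (√(W - w + 1) - √(W - u + 1)))
      + ρ0 * (u - w) + y0 * (2 * Real.exp ((u - W) / 2))))
      (C * (32 / W * (√(W - u + 1))⁻¹ + ρ0 + y0 * Real.exp ((u - W) / 2))) u := by
    intro u hu
    have h1 : 0 < W - u + 1 := by linarith [hu.2]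
    have h2 := (((hasDerivAt_id u).const_sub W).add_const 1).sqrt h1.ne'
    refine (((((h2.const_sub √(W - w + 1)).const_mul 2).const_mul (32 / W)).add
      (((hasDerivAt_id u).sub_const w).const_mul ρ0)).add
      (((hasDerivAt_ex W u).const_mul 2).const_mul y0)).const_mul C |>.congr_deriv ?_
    simp only [id]
    field_simp
  have hy0 := h.y0_nonneg
  have hρ := h.rho_nonneg
  have key := image_norm_le_of_norm_deriv_right_le_deriv_boundary' (a := w) (b := W)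
    (f := fun u => gT u (V u) (Y u) - gT w (V w) (Y w))
    (fun u hu => (((h.d_gT (hsub hu)).sub_const _).continuousWithinAt).mono hsub)
    (fun u hu => ((h.d_gT (hsub (Ico_subset_Icc_self hu))).sub_const _).mono_of_mem_nhdsWithin
      (hI u hu))
    (by simp only [sub_self, norm_zero]; positivity)
    (fun u hu => (hB u hu).continuousAt.continuousWithinAt)
    (fun u hu => (hB u (Ico_subset_Icc_self hu)).hasDerivWithinAt)
    (fun u hu => h.Num_le (hsub (Ico_subset_Icc_self hu))) ⟨hw.2, le_rfl⟩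
  refine key.trans ?_
  have s0 : 0 < √W := Real.sqrt_pos.2 (by linarith)
  have s1 : √(W - w + 1) ≤ √W := Real.sqrt_le_sqrt (by linarith)
  have s2 : 32 / W * (2 * (√(W - w + 1) - √(W - W + 1))) ≤ 64 * (√W)⁻¹ := by
    calc _ ≤ 32 / W * (2 * √W) := by gcongr; linarith [Real.sqrt_nonneg (W - W + 1)]
      _ = _ := by
        field_simp
        rw [Real.sq_sqrt (by linarith)]
        ring
  have s3 : ρ0 * (W - w) ≤ ρ0 * W := by gcongr; linarith
  simp only [sub_self, zero_div, Real.exp_zero, mul_one] at s2 ⊢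
  have s4 : 0 < (√W)⁻¹ := by positivity
  have s5 : 0 ≤ ρ0 * W := by positivity
  calc _ ≤ C * (64 * ((√W)⁻¹ + ρ0 * W + y0)) := by gcongr; linarith
    _ = (2 * 10 ^ 9 * 32 ^ 2 * 64) * ((√W)⁻¹ + ρ0 * W + y0) / W ^ 2 := by
      rw [hC]
      field_simp
    _ ≤ _ := by gcongr; norm_num

end Vale.Agent.P218TP
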