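import Vale.Agent.P218TP.Res
import Vale.Agent.P218TP.Rad3
import Vale.Agent.P218EN.Poly
import Vale.Agent.P218E2.R2
import Vale.Agent.P218CH.Dom

/-! # The tip function of the solutions of the end problem: definitions -/

open Set Complex

namespace Vale.Agent.P218TP

open P218IN
open P218EN (WA Jet Bd Af xf ef pE BB dl)

/-- `V` in terms of `m = τ ^ 2` -/
noncomputable def Vs (w : ℝ) (m : ℂ) : ℂ := 16 * w ^ 2 * m / (1 + m) ^ 2

/-- an auxiliary quantity, `n = -8 w ^ 2 m'` -/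
noncomputable def Bs (w : ℝ) (m n : ℂ) : ℂ := n ^ 2 / (16 * w ^ 2 * m)

/-- `Y` in terms of `m` and `n` -/
noncomputable def Ys (w : ℝ) (m n : ℂ) : ℂ := n ^ 2 / ((1 + m) ^ 2 * ((1 + m) ^ 2 + Bs w m n))

/-- the value of `Y` given by the natural boundary condition -/
noncomputable def YB (w : ℝ) (V : ℂ) : ℂ := (1 - V / (4 * w ^ 2)) * Yb V

/-- the value of `V` at the cut -/
noncomputable def VW (W : ℝ) (α : ℂ) : ℂ := Vs W (ef α W)

/-- **the tip function** of the profile parameter -/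
noncomputable def GG (W : ℝ) (α : ℂ) : ℂ := gT W (VW W α) (YB W (VW W α))

/-- the profile parameter for which the mode zero of `η` vanishes at `w` -/
noncomputable def rpin (α : ℂ) (J : Fin 6 → WA) (w : ℝ) : ℂ :=
  (1 - (1 - α * w) * (1 + (J 0).co 0 w) ^ 2) / w

/-- a solution of the homogeneous end equation on `[a, W]`, non-symmetric modes of size `ω`,
boundary defect of size `y` in the mode zero -/
structure RJ (a W : ℝ) (α : ℂ) (J : Fin 6 → WA) (ω y : ℝ) : Prop where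
  le : a ≤ W
  ge : W ≤ 32 * a
  big : 4000000 ≤ W
  dom : α ∈ P218CH.D W 4000000
  jet : Jet a W (Af α) J
  eq : ∀ w ∈ Icc a W, ∀ θ, pE (Af α w) (xf w) (ef α w) (Complex.sqrt (Af α w)) ((J 0).ev w θ)
    ((J 1).ev w θ) ((J 2).ev w θ) ((J 3).ev w θ) ((J 4).ev w θ) ((J 5).ev w θ) = 0
  om0 : 0 ≤ ω
  om1 : ω ≤ 1 / 10000
  bd : ∀ i, Bd (Icc a W) (fun w => dl (Af α) w / 10000) (fun _ => ω) (J i) 1
  bc : ‖(BB W α J).co 0 W‖ ≤ y

/-- the constant in the transport estimates -/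
noncomputable def cT : ℝ :=
  10 ^ 22 * (1 + P218E2.bd2 P218EN.Ex.exN + P218E2.bd2 P218EN.Ex.exD)

theorem rpin_of_zero {α : ℂ} {J : Fin 6 → WA} {w : ℝ} (hw : w ≠ 0) (h : (J 0).co 0 w = 0) :
    rpin α J w = α := by
  have : (w : ℂ) ≠ 0 := by exact_mod_cast hw
  rw [rpin, h]
  field_simp
  ring

end Vale.Agent.P218TP
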