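import Vale.Agent.P218TP.GDefs

/-! # The tip function of the profile parameter -/

open Set Complex MeasureTheory
open scoped ComplexConjugate

namespace Vale.Agent.P218TP

open P218IN
open P218EN (ef)

theorem G_conj {V Y : ℂ} (hY : ‖Y - 1‖ ≤ 1 / 40) (hV : ‖V⁻¹‖ ≤ 1 / 200) :
    G (conj V) (conj Y) = conj (G V Y) := by
  have h1 := re_ge_of_norm_sub_one_le (norm_sg_sub_one_le' hY hV)
  have : sg (conj V) (conj Y) = conj (sg V Y) :=
    sqrt_eq_of_sq (by rw [conj_re]; linarith) (by rw [← map_pow, sg_sq]; simp)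
  simp [G, this]

theorem Om.conj {p : ℂ × ℂ} (hp : p ∈ Om) : (conj p.1, conj p.2) ∈ Om :=
  ⟨by simpa using hp.1, by
    rw [show conj p.2 - 1 = conj (p.2 - 1) by simp, Complex.norm_conj]; exact hp.2⟩

theorem flow_conj {p : ℂ × ℂ} (hp : p ∈ Om) {τ : ℝ} (hτ : 0 ≤ τ) :
    flow (conj p.1, conj p.2) τ = conj (flow p τ) := by
  have hq := Om.conj hp
  have hd : ∀ t : ℝ, 0 ≤ t → HasDerivAt (fun t => conj (flow p t))
      (G (conj p.1 + t) (conj (flow p t))) t := fun t ht => by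
    have := G_conj (V := p.1 + t) (Y := flow p t) (by linarith [norm_flow_le hp ht])
      (norm_inv_add_le' hp.1 ht)
    rw [map_add, conj_ofReal] at this
    rw [this]
    exact (hasDerivAt_flow hp ht).star
  refine ODE_solution_unique_of_mem_Icc_right (K := 1) (a := 0) (b := τ)
    (v := fun t y => G (conj p.1 + t) y) (s := fun _ => Metric.closedBall 1 (1 / 40))
    (f := flow (conj p.1, conj p.2)) (g := fun t => conj (flow p t)) (fun t ht => ?_)
    (fun t ht => (hasDerivAt_flow hq ht.1).continuousAt.continuousWithinAt)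
    (fun t ht => (hasDerivAt_flow hq ht.1).hasDerivWithinAt)
    (fun t ht => mem_closedBall_iff_norm.2 (by linarith [norm_flow_le hq ht.1]))
    (fun t ht => (hd t ht.1).continuousAt.continuousWithinAt)
    (fun t ht => (hd t ht.1).hasDerivWithinAt) (fun t ht => mem_closedBall_iff_norm.2 ?_)
    (by simp [flow_zero hq, flow_zero hp]) ⟨hτ, le_rfl⟩
  · refine LipschitzOnWith.of_dist_le_mul fun x hx y hy => ?_
    rw [dist_eq_norm, dist_eq_norm, NNReal.coe_one, one_mul]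
    exact G_lip (mem_closedBall_iff_norm.1 hx) (mem_closedBall_iff_norm.1 hy)
      (norm_inv_add_le' hq.1 ht.1)
  · rw [show conj (flow p t) - 1 = conj (flow p t - 1) by simp, Complex.norm_conj]
    linarith [norm_flow_le hp ht.1]

theorem EE_conj {p : ℂ × ℂ} (hp : p ∈ Om) : EE (conj p.1, conj p.2) = conj (EE p) := by
  rw [EE_eq (Om.conj hp), EE_eq hp, ← integral_conj]
  refine setIntegral_congr_fun measurableSet_Ioi fun τ hτ => ?_
  have := G_conj (V := p.1 + τ) (Y := flow p τ) (by linarith [norm_flow_le hp hτ.le])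
    (norm_inv_add_le' hp.1 hτ.le)
  rw [map_add, conj_ofReal] at this
  simp [flow_conj hp hτ.le, hh, this, map_ofNat]

theorem gT_conj (w : ℝ) {V Y : ℂ} (h : (V, Y) ∈ Om) :
    gT w (conj V) (conj Y) = conj (gT w V Y) := by
  have h1 := EE_conj h
  have h2 := Complex.log_conj V (Complex.slitPlane_arg_ne_pi (Om.v_slit h))
  have h3 := Complex.log_conj Y (Complex.slitPlane_arg_ne_pi (Om.y_slit h))
  simp only at h1
  simp [gT, Xi, ell, alL, Hh, h1, h2, h3, map_ofNat]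

theorem gT_lip {w : ℝ} {V Y Y' : ℂ} (h : St w V Y) (h' : St w V Y') :
    ‖gT w V Y - gT w V Y'‖ ≤ 30000 * ‖Y - Y'‖ / w ^ 2 := by
  have h1 := h.pw.Xi_ge
  have h2 := h'.pw.Xi_ge
  have h3 := h.pw.al_le
  have h4 := Hh_lip h.re h.y_le h'.y_le
  have h5 := h.w_gt
  have n1 : Xi w V Y ≠ 0 := norm_pos_iff.1 (by linarith)
  have n2 : Xi w V Y' ≠ 0 := norm_pos_iff.1 (by linarith)
  have e : gT w V Y - gT w V Y' = -(alL w V ^ 2 * (Hh (V, Y) - Hh (V, Y')))
      / (Xi w V Y * Xi w V Y') := by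
    rw [gT, gT, div_sub_div _ _ n1 n2]
    congr 1
    simp only [Xi, ell]
    ring
  rw [e, norm_div, norm_neg, norm_mul, norm_mul, norm_pow]
  calc _ ≤ (17 * w⁻¹) ^ 2 * (51 * ‖Y - Y'‖) / (3 / 4 * (3 / 4)) := by gcongr
    _ = 78608 / 3 * ‖Y - Y'‖ / w ^ 2 := by field_simp; ring
    _ ≤ _ := by gcongr; norm_num

/-- admissible values of `v = 1 - α w` and of the mode zero of `η` -/
structure Lv (w : ℝ) (v η : ℂ) : Prop where
  w_ge : 125000 ≤ w
  re : 125000 ≤ w * v.re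
  sq : ‖v‖ ^ 2 ≤ 8 * v.re
  eta : ‖η‖ * ‖v‖ ≤ v.re / 10000

/-- `m = τ ^ 2` -/
noncomputable def mm (w : ℝ) (v η : ℂ) : ℂ := v / (8 * w) * (1 + η) ^ 2

theorem sq_le_of_disc {v : ℂ} (h : ‖v - 4‖ ≤ 4) : ‖v‖ ^ 2 ≤ 8 * v.re := by
  have h3 : ‖v - 4‖ ^ 2 ≤ 4 ^ 2 := by gcongr
  rw [Complex.sq_norm, Complex.normSq_apply] at h3 ⊢
  simp only [sub_re, re_ofNat, sub_im, im_ofNat, sub_zero] at h3
  linarith

theorem Lv.of_D {W K : ℝ} {α : ℂ} (hW : 0 < W) (hK : 4000000 ≤ K) (h : α ∈ P218CH.D W K) :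
    Lv W (1 - α * W) 0 := by
  have h1 : ‖1 - α * W - 4‖ < 4 - K / W := h
  have h2 : 0 < K / W := by positivity
  have h3 := P218CH.re_gt h
  have h4 : K / W < 4 := by linarith [norm_nonneg (1 - α * W - 4)]
  rw [div_lt_iff₀ hW] at h3 h4
  refine ⟨by linarith, by linarith, sq_le_of_disc (by linarith), ?_⟩
  rw [norm_zero, zero_mul]
  nlinarith

namespace Lv

variable {w : ℝ} {v η : ℂ}

theorem re_pos (h : Lv w v η) : 0 < v.re := by nlinarith [h.w_ge, h.re]

theorem pos (h : Lv w v η) : 0 < ‖v‖ := h.re_pos.trans_le (Complex.re_le_norm v)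

theorem nw (h : Lv w v η) : ‖(w : ℂ)‖ = w := by
  rw [Complex.norm_real, Real.norm_of_nonneg (by linarith [h.w_ge])]

theorem w_ne (h : Lv w v η) : (w : ℂ) ≠ 0 := norm_pos_iff.1 (by rw [h.nw]; linarith [h.w_ge])

theorem v_le (h : Lv w v η) : ‖v‖ ≤ 8 := by nlinarith [h.sq, Complex.re_le_norm v, h.pos]

theorem eta_le (h : Lv w v η) : ‖η‖ ≤ 1 / 10000 :=
  le_of_mul_le_mul_right (by linarith [h.eta, Complex.re_le_norm v]) h.pos

theorem h_le (h : Lv w v η) : ‖1 + η‖ ≤ 10001 / 10000 := by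
  linarith [norm_add_le 1 η, norm_one (α := ℂ), h.eta_le]

theorem h_ge (h : Lv w v η) : 9999 / 10000 ≤ ‖1 + η‖ := by
  linarith [norm_sub_le (1 + η) η, show ‖1 + η - η‖ = 1 by simp, h.eta_le]

theorem norm_m (h : Lv w v η) : ‖mm w v η‖ * w ≤ ‖v‖ / 7 := by
  have := h.w_ge
  rw [mm, norm_mul, norm_div, norm_mul, h.nw, norm_pow, Complex.norm_ofNat]
  calc _ = ‖v‖ * (‖1 + η‖ ^ 2 / 8) := by field_simp
    _ ≤ ‖v‖ * ((10001 / 10000) ^ 2 / 8) := by gcongr; exact h.h_le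
    _ ≤ _ := by linarith [norm_nonneg v]

theorem m_le (h : Lv w v η) : ‖mm w v η‖ ≤ 1 / 100000 := by
  nlinarith [h.norm_m, h.v_le, h.w_ge, norm_nonneg (mm w v η)]

theorem l_le (h : Lv w v η) : ‖1 + mm w v η‖ ≤ 10001 / 10000 := by
  linarith [norm_add_le 1 (mm w v η), norm_one (α := ℂ), h.m_le]

theorem l_ge (h : Lv w v η) : 9999 / 10000 ≤ ‖1 + mm w v η‖ := by
  linarith [norm_sub_le (1 + mm w v η) (mm w v η), show ‖1 + mm w v η - mm w v η‖ = 1 by simp,
    h.m_le]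

theorem l_ne (h : Lv w v η) : 1 + mm w v η ≠ 0 := norm_pos_iff.1 (by linarith [h.l_ge])

theorem h_ne (h : Lv w v η) : 1 + η ≠ 0 := norm_pos_iff.1 (by linarith [h.h_ge])

theorem V_eq (h : Lv w v η) :
    Vs w (mm w v η) = 2 * w * v * ((1 + η) ^ 2 / (1 + mm w v η) ^ 2) := by
  have := h.w_ne
  rw [Vs, ← mul_div_assoc]
  congr 1
  rw [mm]
  field_simp
  ring

theorem u_le (h : Lv w v η) :
    ‖(1 + η) ^ 2 / (1 + mm w v η) ^ 2 - 1‖ ≤ 21 / 10 * (‖η‖ + ‖mm w v η‖) := by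
  have h1 := h.l_ne
  have h2 := h.l_ge
  rw [show (1 + η) ^ 2 / (1 + mm w v η) ^ 2 - 1 = (η - mm w v η) * ((1 + η) + (1 + mm w v η))
    / (1 + mm w v η) ^ 2 by field_simp; ring, norm_div, norm_mul, norm_pow,
    div_le_iff₀ (by positivity)]
  calc _ ≤ (‖η‖ + ‖mm w v η‖) * (10001 / 10000 + 10001 / 10000) := by
        gcongr
        exacts [norm_sub_le _ _, (norm_add_le _ _).trans (add_le_add h.h_le h.l_le)]
    _ ≤ 21 / 10 * (‖η‖ + ‖mm w v η‖) * (9999 / 10000) ^ 2 := by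
        linarith [norm_nonneg η, norm_nonneg (mm w v η)]
    _ ≤ _ := by gcongr

theorem near (h : Lv w v η) : ‖Vs w (mm w v η) - 2 * w * v‖ ≤ w * v.re / 1000 := by
  have h0 := h.w_ge
  rw [h.V_eq, ← mul_sub_one, norm_mul, norm_mul, norm_mul, h.nw, Complex.norm_ofNat]
  have h1 := mul_le_mul_of_nonneg_left h.u_le (show 0 ≤ 2 * w * ‖v‖ by positivity)
  have h2 := mul_le_mul_of_nonneg_left h.norm_m (norm_nonneg v)
  have h3 := mul_le_mul_of_nonneg_left h.eta (show 0 ≤ w by linarith)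
  have h4 := mul_le_mul_of_nonneg_right h0 h.re_pos.le
  nlinarith [h.sq]

theorem re_V (h : Lv w v η) : 249000 ≤ (Vs w (mm w v η)).re := by
  have h1 := (abs_le.1 ((Complex.abs_re_le_norm _).trans h.near)).1
  simp only [sub_re, mul_re, re_ofNat, ofReal_re, im_ofNat, ofReal_im, mul_zero, sub_zero, mul_im,
    zero_mul, add_zero] at h1
  linarith [h.re]

theorem V_le (h : Lv w v η) : ‖Vs w (mm w v η)‖ ≤ 17 * w := by
  have h1 := norm_add_le (Vs w (mm w v η) - 2 * w * v) (2 * w * v)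
  rw [sub_add_cancel, norm_mul, norm_mul, h.nw, Complex.norm_ofNat] at h1
  nlinarith [h.near, h.v_le, Complex.re_le_norm v, h.w_ge]

theorem YB_sub (h : Lv w v η) : ‖YB w (Vs w (mm w v η)) - Yb (Vs w (mm w v η))‖ ≤ 5 / w ∧
    ‖YB w (Vs w (mm w v η)) - Yb (Vs w (mm w v η))‖ ≤ 80 * ‖Vs w (mm w v η)‖⁻¹ ∧
    ‖Yb (Vs w (mm w v η)) - 1‖ ≤ 2 * ‖Vs w (mm w v η)‖⁻¹ ∧ ‖Vs w (mm w v η)‖⁻¹ ≤ 1 / 249000 := by
  have h0 := h.w_ge
  have h1 := h.re_V
  have h2 := h.V_le
  set V := Vs w (mm w v η)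
  have h3 := Complex.re_le_norm V
  have h4 := norm_Yb_le (V := V) (by linarith)
  have h5 : ‖V‖⁻¹ ≤ 1 / 249000 := by rw [one_div]; exact inv_anti₀ (by norm_num) (by linarith)
  have h6 := norm_add_le (Yb V - 1) 1
  rw [sub_add_cancel, norm_one] at h6
  have h7 : ‖YB w V - Yb V‖ ≤ 17 * w / (4 * w ^ 2) * (11 / 10) := by
    rw [show YB w V - Yb V = -(V / (4 * w ^ 2) * Yb V) by rw [YB]; ring, norm_neg, norm_mul,
      norm_div, norm_mul, norm_pow, h.nw, Complex.norm_ofNat]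
    gcongr
    linarith
  have h8 : 17 * w / (4 * w ^ 2) * (11 / 10) = 187 / 40 * w⁻¹ := by field_simp; norm_num
  have h9 : w⁻¹ ≤ 17 * ‖V‖⁻¹ := by
    rw [← div_eq_mul_inv, inv_eq_one_div, div_le_div_iff₀ (by linarith) (by linarith)]
    linarith
  have : 0 < w⁻¹ := by positivity
  exact ⟨by rw [div_eq_mul_inv]; linarith, by linarith, by linarith, h5⟩

theorem st (h : Lv w v η) : St w (Vs w (mm w v η)) (YB w (Vs w (mm w v η))) := by
  obtain ⟨-, h1, h2, h3⟩ := h.YB_sub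
  refine ⟨by linarith [h.w_ge], by linarith [h.re_V], by linarith [h.V_le, h.w_ge], ?_⟩
  linarith [norm_sub_le_norm_sub_add_norm_sub (YB w (Vs w (mm w v η))) (Yb (Vs w (mm w v η))) 1]

end Lv

variable {W K : ℝ} {α : ℂ}

theorem ef_eq (α : ℂ) (W : ℝ) : ef α W = mm W (1 - α * W) 0 := by simp [ef, mm]

theorem st_VW (hW : 0 < W) (hK : 4000000 ≤ K) (h : α ∈ P218CH.D W K) :
    St W (VW W α) (YB W (VW W α)) := by
  rw [VW, ef_eq]
  exact (Lv.of_D hW hK h).st

theorem differentiableOn_GG (hW : 0 < W) (hK : 4000000 ≤ K) :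
    DifferentiableOn ℂ (GG W) (P218CH.D W K) := fun α h => by
  have hs := st_VW hW hK h
  have h1 := (Lv.of_D hW hK h).l_ne
  rw [← ef_eq] at h1
  have h2 : DifferentiableAt ℂ (VW W) α := by
    unfold VW Vs ef
    refine DifferentiableAt.div (by fun_prop) (by fun_prop) (pow_ne_zero 2 h1)
  have h3 : DifferentiableAt ℂ (fun α => YB W (VW W α)) α := by
    have := Om.v_ne hs.om
    unfold YB Yb
    fun_prop (disch := simpa using this)
  have h4 : DifferentiableAt ℂ (fun α => Hh (VW W α, YB W (VW W α))) α :=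
    DifferentiableAt.comp (g := Hh) (f := fun α => (VW W α, YB W (VW W α))) α (Om.d_Hh hs.om)
      (h2.prodMk h3)
  have h5 : Xi W (VW W α) (YB W (VW W α)) ≠ 0 := norm_pos_iff.1 (by linarith [hs.pw.Xi_ge])
  refine DifferentiableAt.differentiableWithinAt ?_
  unfold GG gT
  refine DifferentiableAt.div ?_ ?_ h5
  · unfold alL
    fun_prop
  · unfold Xi ell alL
    fun_prop

theorem GG_conj (hW : 0 < W) (hK : 4000000 ≤ K) (h : α ∈ P218CH.D W K) :
    GG W (conj α) = conj (GG W α) := by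
  have e1 : VW W (conj α) = conj (VW W α) := by simp [VW, Vs, ef, map_ofNat]
  have e2 : YB W (conj (VW W α)) = conj (YB W (VW W α)) := by simp [YB, Yb, map_ofNat]
  rw [GG, GG, e1, e2, gT_conj W (st_VW hW hK h).om]

theorem im_GG (hW : 0 < W) (hK : 4000000 ≤ K) (h : α ∈ P218CH.D W K) (hα : α.im = 0) :
    (GG W α).im = 0 := by
  rw [← Complex.conj_eq_iff_im] at hα ⊢
  rw [← GG_conj hW hK h, hα]

theorem GG_sub_g0 (hW : 0 < W) (hK : 4000000 ≤ K) (h : α ∈ P218CH.D W K) :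
    ‖GG W α - P218CH.g0 W α‖ ≤ 100 / W ^ 2 := by
  have hs := st_VW hW hK h
  have hl := Lv.of_D hW hK h
  have h0 := hl.w_ge
  have hb : P218CH.Big 1 W := ⟨by linarith, by
    linarith [log_le_lin (x := W) (c := 10000) hW (by norm_num), log_ten_thousand]⟩
  have d1 := hb.den_ge le_rfl (by linarith) h
  have d2 := hs.pw.Xi_ge
  have a1 := (P218CH.norm_lt hW (by linarith) h).le
  have u1 := hl.u_le
  have u2 := hl.V_eq
  have u3 := hl.norm_m
  have u4 := hl.m_le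
  have hv := hl.v_le
  have hw := hl.w_ne
  rw [← ef_eq] at u1 u2 u3 u4
  rw [norm_zero, zero_add] at u1
  change VW W α = _ at u2
  set u := ((1 : ℂ) + 0) ^ 2 / (1 + ef α W) ^ 2
  set v := 1 - α * W with hvd
  set V := VW W α
  have l1 : Complex.log V = Real.log 2 + Real.log W + (Complex.log v + Complex.log u) := by
    have r1 := re_ge_of_norm_sub_one_le u1
    have r2 := abs_lt.1 (Complex.abs_arg_lt_pi_div_two_iff.2 (Or.inl hl.re_pos))
    have r3 := abs_lt.1 (Complex.abs_arg_lt_pi_div_two_iff.2 (Or.inl (show 0 < u.re by linarith)))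
    have n1 : v ≠ 0 := norm_pos_iff.1 hl.pos
    have n2 : u ≠ 0 := fun h0 => by rw [h0, zero_re] at r1; linarith
    rw [u2, show 2 * (W : ℂ) * v * u = ((2 * W : ℝ) : ℂ) * (v * u) by push_cast; ring,
      Complex.log_ofReal_mul (by positivity) (mul_ne_zero n1 n2),
      (Complex.log_mul_eq_add_log_iff n1 n2).2 ⟨by linarith, by linarith⟩,
      Real.log_mul two_ne_zero hW.ne', ofReal_add]
  have l2 : ‖ell W V (YB W V) - P218CH.lg W α‖ ≤ 1 / 2 := by
    rw [show ell W V (YB W V) - P218CH.lg W α = (Hh (V, YB W V) - (V / 2 - Complex.log V / 2))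
      - (Real.log 2 + Complex.log u) / 2 by rw [ell, P218CH.lg, ← hvd, l1]; ring]
    have b1 := norm_Hh_sub_le hs.om
    have b2 := Complex.norm_log_one_add_half_le_self (z := u - 1) (by linarith)
    have b3 : ‖V‖⁻¹ ≤ 800⁻¹ := inv_anti₀ (by norm_num) hs.norm_gt.le
    have b4 := norm_add_le (Real.log 2 : ℂ) (Complex.log u)
    rw [add_sub_cancel] at b2
    rw [Complex.norm_real, Real.norm_of_nonneg (Real.log_nonneg one_le_two)] at b4
    refine (norm_sub_le _ _).trans ?_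
    rw [norm_div, Complex.norm_ofNat]
    linarith [Real.log_two_lt_d9, hs.y_le]
  have l3 : ‖alL W V - α‖ ≤ 20 / W ^ 2 := by
    rw [show alL W V - α = -(v * (u - 1) / W) by rw [alL, u2, hvd]; field_simp; ring, norm_neg,
      norm_div, norm_mul, hl.nw, div_le_div_iff₀ hW (by positivity)]
    have := mul_le_mul u1 hv (norm_nonneg _) (by positivity)
    nlinarith [mul_le_mul_of_nonneg_right this hW.le]
  have n1 : Xi W V (YB W V) ≠ 0 := norm_pos_iff.1 (by linarith)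
  have n2 : 1 + α * P218CH.lg W α ≠ 0 := norm_pos_iff.1 (by linarith)
  have e : GG W α - P218CH.g0 W α = ((alL W V - α) * (1 - α * (ell W V (YB W V) - P218CH.lg W α))
      + (α / W - α ^ 2 * (ell W V (YB W V) - P218CH.lg W α)))
      / (Xi W V (YB W V) * (1 + α * P218CH.lg W α)) := by
    rw [GG, gT, P218CH.g0, div_sub_div _ _ n1 n2]
    congr 1
    rw [Xi]
    ring
  set E := ell W V (YB W V) - P218CH.lg W α
  have c1 : ‖1 - α * E‖ ≤ 11 / 10 := by
    refine (norm_sub_le _ _).trans ?_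
    have : 7 / W ≤ 7 / 125000 := by gcongr
    rw [norm_one, norm_mul]
    nlinarith [norm_nonneg α, norm_nonneg E]
  have c2 : ‖α / W - α ^ 2 * E‖ ≤ 7 / W / W + (7 / W) ^ 2 * (1 / 2) := by
    refine (norm_sub_le _ _).trans ?_
    rw [norm_div, norm_mul, norm_pow, hl.nw]
    gcongr
  rw [e, norm_div, norm_mul]
  calc _ ≤ (20 / W ^ 2 * (11 / 10) + (7 / W / W + (7 / W) ^ 2 * (1 / 2))) / (3 / 4 * (7 / 8)) := by
        gcongr
        refine (norm_add_le _ _).trans ?_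
        rw [norm_mul]
        gcongr
    _ = 1712 / 21 / W ^ 2 := by field_simp; norm_num
    _ ≤ _ := by gcongr; norm_num

theorem lev_of {C k c w : ℝ} {g R : ℂ} (hw : 0 < w) (hK : 4000000 ≤ K) (h : α ∈ P218CH.D w K)
    (hk : k ≤ 1) (hC : 9 ≤ C) (h1 : ‖g - GG w α‖ ≤ C * w ^ (-k) / w ^ 2)
    (h2 : ‖R - (c * Real.exp (-w) / w : ℝ) * Rr (VW w α)‖ ≤ C * Real.exp (-w) * w ^ (-(7 / 4) : ℝ)) :
    Lev C k c w g (VW w α) (YB w (VW w α)) R := by
  have hs := st_VW hw hK h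
  refine ⟨hs.re, hs.V_le, hs.y_le, ?_, h1, h2⟩
  have h3 := (Lv.of_D hw hK h).YB_sub.1
  have h4 : w ^ (-1 : ℝ) ≤ w ^ (-k) :=
    Real.rpow_le_rpow_of_exponent_le (by linarith [hs.w_gt]) (by linarith)
  rw [← ef_eq, div_eq_mul_inv, ← Real.rpow_neg_one] at h3
  exact h3.trans (mul_le_mul (by linarith) h4 (by positivity) (by linarith))

end Vale.Agent.P218TP
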