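import Vale.Agent.P218TP.Tip
import Vale.Agent.P218SQ.Defs2

/-! # From the residual formula to the hypotheses of the obstruction theorem -/

open Set Metric Filter Topology Complex MeasureTheory Function

namespace Vale.Agent.P218TP

open P218IN P218SQ

/-- the terminal state `(V, Y)` and the residual `R` at the cut `w`, end parameter `a` -/
structure Lev (C k c w : ℝ) (a V Y R : ℂ) : Prop where
  re : 800 < V.re
  V_le : ‖V‖ ≤ 32 * w
  y_le : ‖Y - 1‖ ≤ 1 / 400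
  bc : ‖Y - Yb V‖ ≤ C * w ^ (-k)
  tip : ‖a - gT w V Y‖ ≤ C * w ^ (-k) / w ^ 2
  res : ‖R - (c * Real.exp (-w) / w : ℝ) * Rr V‖ ≤ C * Real.exp (-w) * w ^ (-(7 / 4) : ℝ)

/-- the residual formula -/
def ResData {ι κ : Type*} [Fintype κ] [DecidableEq ι] (f : (ι → ℝ) → Pt ι κ → ℂ)
    (K r w0 C k c : ℝ) : Prop :=
  ∀ W j, Adm w0 W → Adm w0 (update W j (W j + 1)) → ∀ z ∈ dom 1 K r (update W j (W j + 1)),
    ∃ R V Y : ℝ → ℂ, IntervalIntegrable R volume (W j) (W j + 1) ∧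
      inc f j W z = ∫ w in W j..W j + 1, R w ∧
      ∀ w ∈ Icc (W j) (W j + 1), Lev C k c w (z.1 j) (V w) (Y w) (R w)

variable {C k c W w : ℝ} {a V Y R : ℂ}

theorem Lev.C_nonneg (h : Lev C k c w a V Y R) (hw : 0 < w) : 0 ≤ C :=
  nonneg_of_mul_nonneg_left ((norm_nonneg _).trans h.bc) (by positivity)

theorem Lev.le_W (h : Lev C k c w a V Y R) (hk : 0 ≤ k) (hW : 0 < W) (h1 : W ≤ w) :
    C * w ^ (-k) ≤ C * W ^ (-k) :=
  mul_le_mul_of_nonneg_left (Real.rpow_le_rpow_of_nonpos hW h1 (by linarith))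
    (h.C_nonneg (by linarith))

theorem Lev.near (h : Lev C k c w a V Y R) (hc : 0 < c) (hk : 0 ≤ k) (hW : 15000 < W)
    (h1 : W ≤ w) (h2 : w ≤ W + 1) (hC : C * W ^ (-k) ≤ 1 / 32) :
    ‖R‖ ≤ (16 * c + C) * Real.exp (-W) * W ^ (-(1 : ℝ)) *
      ((1 + ‖sig 1 W a‖) ^ (-(3 / 2) : ℝ) + W ^ (-(3 / 2) / 2 : ℝ)) := by
  have hw0 : 0 < w := by linarith
  have hW0 : 0 < W := by linarith
  have hs : St w V Y := ⟨by linarith, h.re, h.V_le, h.y_le⟩
  have hC0 := h.C_nonneg (by linarith)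
  have hV := hs.norm_gt
  have e1 : (-(3 / 2) / 2 : ℝ) = -(3 / 4) := by norm_num
  have p1 : 0 < (1 + ‖sig 1 W a‖) ^ (-(3 / 2) : ℝ) := by positivity
  have p2 : 0 < W ^ (-(3 / 4) : ℝ) := by positivity
  have k1 : ‖V‖ ^ (-(3 / 2) : ℝ) ≤ 4 * ((1 + ‖sig 1 W a‖) ^ (-(3 / 2) : ℝ) + W ^ (-(3 / 4) : ℝ)) := by
    rcases le_total (W ^ (1 / 2 : ℝ)) ‖V‖ with h3 | h3
    · have h4 := Real.rpow_le_rpow_of_nonpos (by positivity) h3 (show (-(3 / 2) : ℝ) ≤ 0 by norm_num)
      rw [← Real.rpow_mul (by linarith)] at h4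
      norm_num at h4 ⊢
      linarith
    · have h4 : W ^ (1 / 2 : ℝ) ≤ W / 2 := by
        rw [← Real.sqrt_eq_rpow, Real.sqrt_le_left (by linarith)]
        nlinarith
      obtain ⟨h5, h6⟩ := hs.lower (by linarith)
      have h7 := (h.le_W hk (by linarith) h1).trans hC
      have h8 : C * w ^ (-k) / w ^ 2 ≤ (1 / 32) / w ^ 2 := by gcongr
      obtain ⟨-, h9⟩ := norm_inv_sub_inv_le (g := a) (L := 2 * w) (e := (1 / 32) / w ^ 2)
        (by linarith) h5
        (by rw [norm_sub_rev]; exact h.tip.trans h8) (by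
          rw [inv_eq_one_div, div_le_div_iff₀ (by positivity) (by linarith)]
          nlinarith)
      have h10 : 2 * (2 * w) ^ 2 * ((1 / 32) / w ^ 2) = 1 / 4 := by
        field_simp
        norm_num
      have h11 := log_sub_le (by linarith) h1 h2
      have h12 : W⁻¹ ≤ 1 := inv_le_one_of_one_le₀ (by linarith)
      have h13 : ‖sig 1 W a‖ ≤ ‖V‖ + 3 := by
        rw [show sig 1 W a = (w + Real.log w - (gT w V Y)⁻¹) + ((gT w V Y)⁻¹ - a⁻¹)
          - (((w - W) + (Real.log w - Real.log W) : ℝ) : ℂ) by rw [sig]; push_cast; ring]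
        refine (norm_sub_le _ _).trans ?_
        rw [Complex.norm_real, Real.norm_eq_abs]
        have := abs_add_le (w - W) (Real.log w - Real.log W)
        rw [abs_of_nonneg (sub_nonneg.2 h1)] at this
        linarith [norm_add_le (w + Real.log w - (gT w V Y)⁻¹) ((gT w V Y)⁻¹ - a⁻¹)]
      linarith [rpow_le_of_le (x := ‖V‖) (norm_nonneg (sig 1 W a)) (by linarith)]
  have k2 : Real.exp (-w) ≤ Real.exp (-W) := Real.exp_le_exp.2 (by linarith)
  have k3 : w ^ (-(7 / 4) : ℝ) ≤ W⁻¹ * W ^ (-(3 / 4) : ℝ) := by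
    rw [← Real.rpow_neg_one, ← Real.rpow_add (by linarith)]
    norm_num
    exact Real.rpow_le_rpow_of_nonpos (by linarith) h1 (by norm_num)
  have k4 : ‖((c * Real.exp (-w) / w : ℝ) : ℂ) * Rr V‖ ≤ c * Real.exp (-W) * W⁻¹ *
      (4 * (4 * ((1 + ‖sig 1 W a‖) ^ (-(3 / 2) : ℝ) + W ^ (-(3 / 4) : ℝ)))) := by
    rw [norm_mul, Complex.norm_real, Real.norm_of_nonneg (by have : 0 < w := by linarith
                                                             positivity), div_eq_mul_inv]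
    gcongr
    linarith [norm_Rr_le (V := V) (by linarith [h.re])]
  have k5 : C * Real.exp (-w) * w ^ (-(7 / 4) : ℝ)
      ≤ C * Real.exp (-W) * (W⁻¹ * W ^ (-(3 / 4) : ℝ)) := by gcongr
  have k6 := norm_add_le (R - (c * Real.exp (-w) / w : ℝ) * Rr V)
    (((c * Real.exp (-w) / w : ℝ) : ℂ) * Rr V)
  rw [sub_add_cancel] at k6
  rw [e1, Real.rpow_neg_one]
  have k7 : 0 ≤ C * Real.exp (-W) * W⁻¹ * (1 + ‖sig 1 W a‖) ^ (-(3 / 2) : ℝ) := by positivity
  linarith [h.res]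

theorem Lev.inner (h : Lev C k c w a V Y R) (hc : 0 < c) (hk : 0 ≤ k) (hW : 15000 < W)
    (h1 : W ≤ w) (h2 : w ≤ W + 1) (hC : C * W ^ (-k) ≤ 1 / 32) {σ : ℂ} (hσ : σ.re ≤ -205)
    (hM : ‖σ‖ + 4 ≤ W / 4) {δ : ℝ}
    (hδ : 60 * (C * W ^ (-k)) + ((8 * (‖σ‖ + 4) + 40) * (2 * (‖σ‖ + 4) + 9) + 1) / W
      + ‖sig 1 W a - σ‖ ≤ δ) (hδ1 : δ ≤ 1) :
    ‖(Real.exp W * W : ℝ) * R - c * (Complex.exp (-(w - W : ℝ)) * RT (1 - σ - (w - W : ℝ)))‖
      ≤ c * (16 * (W⁻¹ + δ)) + C * W ^ (-(3 / 4) : ℝ) := by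
  have hw1 : 0 < w := by linarith
  have hW0 : 0 < W := by linarith
  have hs : St w V Y := ⟨by linarith, h.re, h.V_le, h.y_le⟩
  have hC0 := h.C_nonneg (by linarith)
  have hV := hs.norm_gt
  have h7 := h.le_W hk (by linarith) h1
  have p0 : 0 ≤ C * W ^ (-k) := by positivity
  have p1 : 0 ≤ (8 * (‖σ‖ + 4) + 40) * (2 * (‖σ‖ + 4) + 9) := by positivity
  have p2 : 0 ≤ ((8 * (‖σ‖ + 4) + 40) * (2 * (‖σ‖ + 4) + 9) + 1) / W := by positivity
  have s1 : ‖sig 1 W a‖ ≤ ‖σ‖ + 1 := by linarith [norm_sub_norm_le (sig 1 W a) σ]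
  have l1 := log_le_quarter (x := W) (by linarith)
  have l2 := Real.log_nonneg (show 1 ≤ W by linarith)
  have nW : ‖((W + 1 * Real.log W : ℝ) : ℂ)‖ = W + Real.log W := by
    rw [Complex.norm_real, Real.norm_of_nonneg (by linarith), one_mul]
  have a1 : ‖a⁻¹‖ ≤ 2 * W := by
    have := norm_sub_le ((W + 1 * Real.log W : ℝ) : ℂ) (sig 1 W a)
    rw [nW, sig, sub_sub_cancel] at this
    rw [sig] at s1
    linarith
  have a2 : a ≠ 0 := fun h0 => by
    rw [h0, sig, inv_zero, sub_zero, nW] at s1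
    linarith
  have a3 : (2 * W)⁻¹ ≤ ‖a‖ := by
    rw [norm_inv] at a1
    exact inv_le_of_inv_le₀ (norm_pos_iff.2 a2) a1
  have h8 : C * w ^ (-k) / w ^ 2 ≤ C * W ^ (-k) / W ^ 2 := by gcongr
  obtain ⟨hg, h9⟩ := norm_inv_sub_inv_le (L := 2 * W) (by linarith) a3 (h.tip.trans h8) (by
    rw [inv_eq_one_div, div_le_div_iff₀ (by positivity) (by linarith)]
    nlinarith)
  have h10 : 2 * (2 * W) ^ 2 * (C * W ^ (-k) / W ^ 2) = 8 * (C * W ^ (-k)) := by
    field_simp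
    ring
  have h11 := log_sub_le (by linarith) h1 h2
  have h12 : W⁻¹ ≤ 1 := inv_le_one_of_one_le₀ (by linarith)
  set σg : ℂ := w + Real.log w - (gT w V Y)⁻¹ with hσg
  have e1 : σg = σ + (w - W : ℝ) + ((sig 1 W a - σ) + (a⁻¹ - (gT w V Y)⁻¹)
      + ((Real.log w - Real.log W : ℝ) : ℂ)) := by
    rw [hσg, sig]
    push_cast
    ring
  have b1 : ‖(sig 1 W a - σ) + (a⁻¹ - (gT w V Y)⁻¹) + ((Real.log w - Real.log W : ℝ) : ℂ)‖
      ≤ ‖sig 1 W a - σ‖ + 8 * (C * W ^ (-k)) + W⁻¹ := by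
    refine (norm_add_le _ _).trans (add_le_add ((norm_add_le _ _).trans (by linarith)) ?_)
    rwa [Complex.norm_real, Real.norm_eq_abs]
  have b2 : ‖σg‖ ≤ ‖σ‖ + 4 := by
    rw [e1]
    refine (norm_add_le _ _).trans ?_
    have := norm_add_le σ (w - W : ℝ)
    rw [Complex.norm_real, Real.norm_of_nonneg (sub_nonneg.2 h1)] at this
    linarith
  obtain ⟨-, b3⟩ := hs.upper hg hσg b2 (by linarith)
  have b4 : ‖Yb V - 1‖ ≤ 1 / 400 := by
    have := norm_Yb_le (V := V) (by linarith [h.re])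
    have : ‖V‖⁻¹ ≤ 800⁻¹ := inv_anti₀ (by norm_num) hV.le
    linarith
  have b5 := Hh_lip h.re b4 h.y_le
  rw [norm_sub_rev (Yb V)] at b5
  have b6 : (8 * (‖σ‖ + 4) + 40) * (2 * (‖σ‖ + 4) + 9) / w
      ≤ (8 * (‖σ‖ + 4) + 40) * (2 * (‖σ‖ + 4) + 9) / W := by gcongr
  set T : ℂ := 1 - σ - (w - W : ℝ) with hT
  have b7 : ‖Hb V - T‖ ≤ δ := by
    rw [show Hb V - T = (Hh (V, Yb V) - Hh (V, Y)) + (Hh (V, Y) - (1 - σg))
      - ((sig 1 W a - σ) + (a⁻¹ - (gT w V Y)⁻¹) + ((Real.log w - Real.log W : ℝ) : ℂ)) by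
        rw [Hb, hT]; linear_combination -e1]
    refine (norm_sub_le _ _).trans ?_
    rw [add_div, one_div] at hδ
    linarith [norm_add_le (Hh (V, Yb V) - Hh (V, Y)) (Hh (V, Y) - (1 - σg)), h.bc]
  have t1 : 205 ≤ T.re := by
    simp only [hT, sub_re, one_re, ofReal_re]
    linarith
  have t2 : 204 ≤ (Hb V).re := by
    have := (abs_le.1 ((Complex.abs_re_le_norm _).trans b7)).1
    rw [sub_re] at this
    linarith
  have t3 := RT_lip (T := Hb V) (T' := T) (by linarith) (by linarith)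
  have t4 := norm_RT_le' (T := Hb V) (by linarith)
  rw [RT_Hb (by linarith [h.re]) (by linarith)] at t3 t4
  have hw0 : (w : ℂ) ≠ 0 := hs.pw.w_ne
  have e2 : (Real.exp W * W : ℝ) * R - c * (Complex.exp (-(w - W : ℝ)) * RT T)
      = (Real.exp W * W : ℝ) * (R - (c * Real.exp (-w) / w : ℝ) * Rr V)
        + (c * Real.exp (-(w - W)) : ℝ) * ((Rr V - RT T) - ((w - W) / w : ℝ) * Rr V) := by
    push_cast
    rw [neg_sub, Complex.exp_sub, Complex.exp_neg]
    field_simp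
    ring
  have x1 : Real.exp (-(w - W)) ≤ 1 := Real.exp_le_one_iff.2 (by linarith)
  have x2 : Real.exp W * W * (C * Real.exp (-w) * w ^ (-(7 / 4) : ℝ)) ≤ C * W ^ (-(3 / 4) : ℝ) := by
    have k3 : w ^ (-(7 / 4) : ℝ) ≤ W⁻¹ * W ^ (-(3 / 4) : ℝ) := by
      rw [← Real.rpow_neg_one, ← Real.rpow_add (by linarith)]
      norm_num
      exact Real.rpow_le_rpow_of_nonpos (by linarith) h1 (by norm_num)
    calc _ ≤ Real.exp W * W * (C * Real.exp (-W) * (W⁻¹ * W ^ (-(3 / 4) : ℝ))) := by gcongr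
      _ = _ := by
        rw [Real.exp_neg]
        field_simp
  have x3 : ‖(((w - W) / w : ℝ) : ℂ) * Rr V‖ ≤ W⁻¹ * 16 := by
    have : 0 ≤ w - W := sub_nonneg.2 h1
    rw [norm_mul, Complex.norm_real, Real.norm_of_nonneg (by have : 0 < w := by linarith
                                                             positivity), inv_eq_one_div]
    gcongr
    linarith
  rw [e2]
  refine (norm_add_le _ _).trans ?_
  rw [norm_mul, norm_mul, Complex.norm_real, Complex.norm_real, Real.norm_of_nonneg (by positivity),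
    Real.norm_of_nonneg (by positivity), add_comm]
  refine add_le_add ?_ ((mul_le_mul_of_nonneg_left h.res (by positivity)).trans x2)
  refine mul_le_mul (mul_le_of_le_one_right hc.le x1) ((norm_sub_le _ _).trans (by linarith))
    (norm_nonneg _) hc.le

theorem SeqData.mono {ι κ : Type*} [Fintype ι] [Fintype κ] [DecidableEq ι]
    {f : (ι → ℝ) → Pt ι κ → ℂ} {β K r w0 C w1 C' : ℝ} {B : ℕ} (h : SeqData f β K r w0 C B)
    (hw : w0 ≤ w1) (hw1 : 0 ≤ w1) (hC : C ≤ C') : SeqData f β K r w1 C' B := by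
  have ha : ∀ W : ι → ℝ, Adm w1 W → Adm w0 W := fun W hW i => ⟨hw.trans (hW i).1, (hW i).2⟩
  refine ⟨h.r_pos, fun W hW => h.holo W (ha W hW), fun W hW z hz => (h.bdd W (ha W hW) z hz).trans
    hC, fun W hW => h.real W (ha W hW), fun W j w' h1 h2 h3 h4 z hz =>
    (h.step W j w' h1 h2 (ha _ h3) (ha _ h4) z hz).trans ?_⟩
  have := hw1.trans (h3 j).1
  gcongr

/-- **The tip hypotheses follow from the residual formula.** -/
theorem tipData_of {ι κ : Type*} [Fintype ι] [Fintype κ] [DecidableEq ι]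
    {f : (ι → ℝ) → Pt ι κ → ℂ} {K r w0 C C' k c : ℝ} {B : ℕ} (hs : SeqData f 1 K r w0 C B)
    (hr : ResData f K r w0 C' k c) (hk : 0 < k) (hc : 0 < c) :
    ∃ (w1 C1 K1 : ℝ) (S : ℂ), w0 ≤ w1 ∧ TipData f 1 K r w1 C1 B 1 (3 / 2) K1 S := by
  obtain ⟨S, hS, hint⟩ := exists_stokes_inner
  have t0 : Tendsto (fun W : ℝ => C' * W ^ (-k)) atTop (𝓝 0) := by
    simpa using (tendsto_rpow_neg_atTop hk).const_mul C'
  obtain ⟨w1, hw1⟩ := eventually_atTop.1 ((t0.eventually (ge_mem_nhds (show (0 : ℝ) < 1 / 32 by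
    norm_num))).and ((eventually_gt_atTop 15000).and (eventually_ge_atTop w0)))
  have h0 := hw1 w1 le_rfl
  have ha : ∀ W : ι → ℝ, Adm w1 W → Adm w0 W := fun W hW i => ⟨h0.2.2.trans (hW i).1, (hW i).2⟩
  refine ⟨w1, max C (16 * c + C'), 205, S, h0.2.2,
    SeqData.mono hs h0.2.2 (by linarith [h0.2.1]) (le_max_left _ _), by norm_num, hS,
    fun W j h1 h2 z hz => ?_, fun j μ K' _ _ hK' => ?_⟩
  · obtain ⟨R, V, Y, -, hinc, hl⟩ := hr W j (ha _ h1) (ha _ h2) z hz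
    obtain ⟨a1, a2, -⟩ := hw1 _ (h1 j).1
    rw [hinc]
    refine (intervalIntegral.norm_integral_le_of_norm_le_const fun w hw => ?_).trans (le_of_eq (by
      rw [add_sub_cancel_left, abs_one, mul_one]))
    rw [uIoc_of_le (by linarith)] at hw
    refine ((hl w ⟨hw.1.le, hw.2⟩).near hc hk.le a2 hw.1.le hw.2 a1).trans ?_
    gcongr
    exact le_max_right _ _
  refine ⟨fun η => c * ∫ τ in (0 : ℝ)..1, Complex.exp (-τ) * RT ((K' + 1 : ℝ) - η * I - τ),
    c * Real.exp (-(K' + 1)), by positivity, ?_, fun W z η hn hW _ _ hσ => ?_⟩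
  · simp_rw [mul_assoc]
    rw [integral_const_mul, hint _ (by linarith)]
    push_cast
    ring
  set σ : ℂ := -K' + η * I with hσd
  set δ : ℕ → ℝ := fun n => 60 * (C' * W n j ^ (-k))
    + ((8 * (‖σ‖ + 4) + 40) * (2 * (‖σ‖ + 4) + 9) + 1) / W n j + ‖sig 1 (W n j) ((z n).1 j) - σ‖
  have tδ : Tendsto δ atTop (𝓝 0) := by
    simpa using (((t0.comp hW).const_mul 60).add (tendsto_const_nhds.div_atTop hW)).add
      (tendsto_iff_norm_sub_tendsto_zero.1 hσ)
  rw [tendsto_iff_norm_sub_tendsto_zero]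
  refine squeeze_zero' (Eventually.of_forall fun _ => norm_nonneg _)
    (g := fun n => c * (16 * ((W n j)⁻¹ + δ n)) + C' * W n j ^ (-(3 / 4) : ℝ)) ?_ ?_
  · filter_upwards [tδ.eventually (ge_mem_nhds one_pos),
      hW.eventually (eventually_ge_atTop (4 * (‖σ‖ + 4)))] with n n1 n2
    obtain ⟨h1, h2, hz, -⟩ := hn n
    obtain ⟨R, V, Y, hi, hinc, hl⟩ := hr (W n) j (ha _ h1) (ha _ h2) _ hz
    obtain ⟨a1, a2, -⟩ := hw1 _ (h1 j).1
    set m : ℝ → ℂ := fun τ => Complex.exp (-τ) * RT ((K' + 1 : ℝ) - η * I - τ) with hm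
    have mc : ContinuousOn (fun w => m (w - W n j)) (uIcc (W n j) (W n j + 1)) := by
      intro w hw
      rw [uIcc_of_le (by linarith)] at hw
      refine (ContinuousAt.mul (by fun_prop) (ContinuousAt.comp
        (f := fun w : ℝ => ((K' + 1 : ℝ) : ℂ) - η * I - (w - W n j : ℝ))
        (differentiableAt_RT ?_).continuousAt (by fun_prop))).continuousWithinAt
      simp only [sub_re, ofReal_re, mul_re, I_re, mul_zero, ofReal_im, I_im]
      linarith [hw.2]
    have e1 : ∫ τ in (0 : ℝ)..1, m τ = ∫ w in W n j..W n j + 1, m (w - W n j) := by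
      rw [intervalIntegral.integral_comp_sub_right m]
      simp
    rw [hinc, e1, ← intervalIntegral.integral_const_mul, ← intervalIntegral.integral_const_mul,
      ← intervalIntegral.integral_sub (hi.const_mul _) (mc.intervalIntegrable.const_mul _)]
    refine (intervalIntegral.norm_integral_le_of_norm_le_const fun w hw => ?_).trans (le_of_eq (by
      rw [add_sub_cancel_left, abs_one, mul_one]))
    rw [uIoc_of_le (by linarith)] at hw
    have := (hl w ⟨hw.1.le, hw.2⟩).inner hc hk.le a2 hw.1.le hw.2 a1 (σ := σ)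
      (by simp [hσd]; linarith) (by linarith) le_rfl n1
    have e : ((K' + 1 : ℝ) : ℂ) - η * I - ((w - W n j : ℝ) : ℂ) = 1 - σ - (w - W n j : ℝ) := by
      rw [hσd]
      push_cast
      ring
    rw [Real.rpow_one]
    simp only [hm, e]
    exact this
  · simpa using (((tendsto_inv_atTop_zero.comp hW).add tδ).const_mul 16).const_mul c |>.add
      (((tendsto_rpow_neg_atTop (y := 3 / 4) (by norm_num)).comp hW).const_mul C')

end Vale.Agent.P218TP
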