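import Vale.Agent.P218IN.Sig

/-! # The tip function of a rotationally symmetric state

A state at level `w = |X|² / 4` is a pair `(V, Y)`, `V = 4 w² sin² φ`, `Y = P²`. -/

open Set Metric Filter Topology Complex

namespace Vale.Agent.P218TP

open P218IN

/-- the local end parameter: `V = 2 w (1 - alL w V * w)` -/
noncomputable def alL (w : ℝ) (V : ℂ) : ℂ := (2 * w - V) / (2 * w ^ 2)

/-- the logarithmic correction, `log w - log V / 2 + log Y / 2 + EE (V, Y)` -/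
noncomputable def ell (w : ℝ) (V Y : ℂ) : ℂ := Real.log w - V / 2 + Hh (V, Y)

/-- the denominator of the tip function -/
noncomputable def Xi (w : ℝ) (V Y : ℂ) : ℂ := 1 - 1 / w + alL w V * ell w V Y

/-- the tip function (inverse of the tip position) -/
noncomputable def gT (w : ℝ) (V Y : ℂ) : ℂ := alL w V / Xi w V Y

/-- the disc of admissible end parameters for the cut `W` -/
def DD (W K : ℝ) : Set ℂ := {α | ‖1 - α * W‖ ^ 2 / 8 + K / W < (1 - α * W).re}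

/-- the profile -/
noncomputable def m0 (α : ℂ) (w : ℝ) : ℂ := 2 * w * (1 - α * w)

/-- a solution of the rotationally symmetric system with errors `ρ` on `[a, W]` -/
structure Rad (a W : ℝ) (α : ℂ) (V Y γ ρ : ℝ → ℂ) (ρ0 y0 : ℝ) : Prop where
  pos : 0 < a
  le : a ≤ W
  ge : W ≤ 32 * a
  dom : α ∈ DD W 1000000
  dV : ∀ w ∈ Icc a W,
    HasDerivWithinAt V (2 * V w / w - 2 * γ w * Y w / sg (V w) (Y w)) (Icc a W) w
  dY : ∀ w ∈ Icc a W,
    HasDerivWithinAt Y (2 * Y w - 2 * γ w * Y w / sg (V w) (Y w) + ρ w) (Icc a W) w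
  ga : ∀ w ∈ Icc a W, γ w ^ 2 = 1 - V w / (4 * w ^ 2) ∧ 0 ≤ (γ w).re
  near : ∀ w ∈ Icc a W, ‖V w - m0 α w‖ ≤ (m0 α w).re / 4
  small : ∀ w ∈ Icc a W, ‖Y w - 1‖ ≤ 1 / 400
  rho : ∀ w ∈ Icc a W, ‖ρ w‖ ≤ ρ0
  y0_nonneg : 0 ≤ y0
  term : ‖Y W - 1‖ ≤ 400 * ‖V W‖⁻¹ + ρ0 + y0

end Vale.Agent.P218TP
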