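import Vale.Agent.P218TP.RJ3

/-! All statements of the plan are proved in `G1`, `RJ1`, `RJ2`, `RJ3`. -/
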