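import Vale.Agent.P218TP.G1

/-! # Reduction of the end equation to the rotationally symmetric system -/

open Set Complex

namespace Vale.Agent.P218TP

open P218IN
open P218EN (WA Jet Bd WEq Af xf ef pE pB BB dl Ex)

/-- `n = h (h - p)` -/
def nn (η p : ℂ) : ℂ := (1 + η) * (1 + η - p)

/-- the right hand side of the equation for `n` -/
noncomputable def FF (w : ℝ) (m n : ℂ) : ℂ :=
  (1 + m) ^ 2 * ((1 + m) * (m - 1) + n - 2 * Bs w m n) + n * Bs w m n * (1 - 1 / w)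

namespace Lv

variable {w : ℝ} {v η p : ℂ}

theorem v_ne (h : Lv w v η) : v ≠ 0 := norm_pos_iff.1 h.pos

theorem m_ne (h : Lv w v η) : mm w v η ≠ 0 :=
  mul_ne_zero (div_ne_zero h.v_ne (mul_ne_zero (by norm_num) h.w_ne)) (pow_ne_zero 2 h.h_ne)

theorem A_le (h : Lv w v η) : ‖(2 * w * v)⁻¹‖ ≤ 1 / 250000 := by
  rw [norm_inv, norm_mul, norm_mul, h.nw, Complex.norm_ofNat, one_div]
  refine inv_anti₀ (by norm_num) ?_
  nlinarith [h.re, h.w_ge, Complex.re_le_norm v]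

theorem B_eq (h : Lv w v η) (p : ℂ) :
    Bs w (mm w v η) (nn η p) = (2 * w * v)⁻¹ * (1 + η - p) ^ 2 := by
  have := h.w_ne
  have := h.v_ne
  have := h.h_ne
  rw [Bs, mm, nn]
  field_simp
  ring

theorem B_le (h : Lv w v η) (hp : ‖p‖ ≤ 1 / 10000) : ‖Bs w (mm w v η) (nn η p)‖ ≤ 1 / 100000 := by
  have h1 : ‖1 + η - p‖ ≤ 11 / 10 := by linarith [norm_sub_le (1 + η) p, h.h_le]
  rw [h.B_eq, norm_mul, norm_pow]
  calc _ ≤ 1 / 250000 * (11 / 10 : ℝ) ^ 2 := by gcongr; exact h.A_le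
    _ ≤ _ := by norm_num

theorem n_le (h : Lv w v η) (hp : ‖p‖ ≤ 1 / 10000) : ‖nn η p - 1‖ ≤ 1 / 3000 := by
  rw [show nn η p - 1 = η + (1 + η) * (η - p) by rw [nn]; ring]
  refine (norm_add_le _ _).trans ?_
  rw [norm_mul]
  have := mul_le_mul h.h_le ((norm_sub_le η p).trans (add_le_add h.eta_le hp)) (norm_nonneg _)
    (by norm_num)
  linarith [h.eta_le]

theorem l2_le (h : Lv w v η) : ‖(1 + mm w v η) ^ 2 - 1‖ ≤ 3 / 100000 := by
  rw [show (1 + mm w v η) ^ 2 - 1 = mm w v η * ((1 + mm w v η) + 1) by ring, norm_mul]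
  have h1 := norm_add_le (1 + mm w v η) 1
  rw [norm_one] at h1
  nlinarith [h.m_le, h.l_le, norm_nonneg (mm w v η), norm_nonneg (1 + mm w v η + 1)]

theorem lB_le (h : Lv w v η) (hp : ‖p‖ ≤ 1 / 10000) :
    ‖(1 + mm w v η) ^ 2 + Bs w (mm w v η) (nn η p) - 1‖ ≤ 4 / 100000 := by
  rw [add_sub_right_comm]
  linarith [norm_add_le ((1 + mm w v η) ^ 2 - 1) (Bs w (mm w v η) (nn η p)), h.l2_le, h.B_le hp]

theorem lB_ge (h : Lv w v η) (hp : ‖p‖ ≤ 1 / 10000) :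
    9999 / 10000 ≤ ‖(1 + mm w v η) ^ 2 + Bs w (mm w v η) (nn η p)‖ := by
  linarith [re_ge_of_norm_sub_one_le (h.lB_le hp),
    Complex.re_le_norm ((1 + mm w v η) ^ 2 + Bs w (mm w v η) (nn η p))]

theorem lB_ne (h : Lv w v η) (hp : ‖p‖ ≤ 1 / 10000) :
    (1 + mm w v η) ^ 2 + Bs w (mm w v η) (nn η p) ≠ 0 :=
  norm_pos_iff.1 (by linarith [h.lB_ge hp])

end Lv

theorem div_sub_one_le {x y : ℂ} {r s : ℝ} (hx : ‖x - 1‖ ≤ r) (hy : ‖y - 1‖ ≤ s)
    (hs : s ≤ 1 / 100) : ‖x / y - 1‖ ≤ 102 / 100 * (r + s) := by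
  have h1 : 99 / 100 ≤ ‖y‖ := by linarith [re_ge_of_norm_sub_one_le hy, Complex.re_le_norm y]
  have h2 : y ≠ 0 := norm_pos_iff.1 (by linarith)
  have h3 := norm_sub_le (x - 1) (y - 1)
  rw [div_sub_one h2, norm_div, div_le_iff₀ (by linarith)]
  rw [sub_sub_sub_cancel_right] at h3
  nlinarith [norm_nonneg (x - 1), norm_nonneg (y - 1)]

theorem mul_sub_one_le {x y : ℂ} {r s : ℝ} (hx : ‖x - 1‖ ≤ r) (hy : ‖y - 1‖ ≤ s) :
    ‖x * y - 1‖ ≤ r + s + r * s := by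
  rw [show x * y - 1 = (x - 1) + (y - 1) + (x - 1) * (y - 1) by ring]
  refine (norm_add_le _ _).trans (add_le_add ((norm_add_le _ _).trans (add_le_add hx hy)) ?_)
  rw [norm_mul]
  exact mul_le_mul hx hy (norm_nonneg _) ((norm_nonneg _).trans hx)

namespace Lv

variable {w : ℝ} {v η p : ℂ}

theorem Y_le (h : Lv w v η) (hp : ‖p‖ ≤ 1 / 10000) :
    ‖Ys w (mm w v η) (nn η p) - 1‖ ≤ 1 / 400 := by
  have h1 := mul_sub_one_le (h.n_le hp) (h.n_le hp)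
  rw [← pow_two] at h1
  exact (div_sub_one_le h1 (mul_sub_one_le h.l2_le (h.lB_le hp)) (by norm_num)).trans
    (by norm_num)

theorem sg_eq (h : Lv w v η) (hp : ‖p‖ ≤ 1 / 10000) :
    sg (Vs w (mm w v η)) (Ys w (mm w v η) (nn η p))
      = nn η p / ((1 + mm w v η) ^ 2 + Bs w (mm w v η) (nn η p)) := by
  refine sqrt_eq_of_sq ?_ ?_
  · linarith [re_ge_of_norm_sub_one_le (div_sub_one_le (h.n_le hp) (h.lB_le hp) (by norm_num))]
  · have h1 := h.lB_ne hp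
    have h2 := h.l_ne
    have e : nn η p ^ 2 = 16 * w ^ 2 * mm w v η * Bs w (mm w v η) (nn η p) := by
      have := h.w_ne
      have := h.m_ne
      rw [Bs]
      field_simp
    have := h.w_ne
    have := h.m_ne
    rw [Ys, Vs, div_pow, e]
    field_simp
    ring

theorem n_ne (h : Lv w v η) (hp : ‖p‖ ≤ 1 / 10000) : nn η p ≠ 0 := fun h0 => by
  have := h.n_le hp
  rw [h0] at this
  norm_num at this

theorem st' (h : Lv w v η) (hp : ‖p‖ ≤ 1 / 10000) :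
    St w (Vs w (mm w v η)) (Ys w (mm w v η) (nn η p)) :=
  ⟨h.st.w_gt, h.st.re, h.st.V_le, h.Y_le hp⟩

end Lv

theorem hasDerivAt_ofReal' (w : ℝ) : HasDerivAt (fun u : ℝ => (u : ℂ)) 1 w :=
  (hasDerivAt_id (w : ℂ)).comp_ofReal

theorem hasDeriv_Vs {S : Set ℝ} {w : ℝ} {m : ℝ → ℂ} {n : ℂ}
    (hm : HasDerivWithinAt m (-n / (8 * w ^ 2)) S w) (hw : (w : ℂ) ≠ 0) (hl : 1 + m w ≠ 0) :
    HasDerivWithinAt (fun u => Vs u (m u))
      (2 * Vs w (m w) / w - 2 * ((1 - m w) / (1 + m w)) * (n / (1 + m w) ^ 2)) S w := by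
  refine (((((hasDerivAt_ofReal' w).hasDerivWithinAt.pow 2).const_mul 16).mul hm).div
    ((hm.const_add 1).pow 2) (pow_ne_zero 2 hl)).congr_deriv ?_
  simp only [Vs, Pi.pow_apply, Pi.mul_apply]
  field_simp
  norm_num
  ring

theorem hasDeriv_Ys {S : Set ℝ} {w : ℝ} {m n : ℝ → ℂ} {N : ℂ}
    (hm : HasDerivWithinAt m (-n w / (8 * w ^ 2)) S w) (hn : HasDerivWithinAt n N S w)
    (hw : (w : ℂ) ≠ 0) (h0 : m w ≠ 0) (h : n w ≠ 0) (hl : 1 + m w ≠ 0)
    (hB : (1 + m w) ^ 2 + Bs w (m w) (n w) ≠ 0) :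
    HasDerivWithinAt (fun u => Ys u (m u) (n u))
      (2 * Ys w (m w) (n w) - 2 * ((1 - m w) / (1 + m w)) * (n w / (1 + m w) ^ 2)
        + 2 * n w / ((1 + m w) ^ 2 + Bs w (m w) (n w)) ^ 2
          * (N - FF w (m w) (n w) / (1 + m w) ^ 2)) S w := by
  have h1 : HasDerivWithinAt (fun u => Bs u (m u) (n u)) (n w * N / (8 * w ^ 2 * m w)
      - 2 * Bs w (m w) (n w) / w + 2 * Bs w (m w) (n w) ^ 2 / n w) S w := by
    refine ((hn.pow 2).div ((((hasDerivAt_ofReal' w).hasDerivWithinAt.pow 2).const_mul 16).mul hm)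
      (by simp [hw, h0])).congr_deriv ?_
    simp only [Bs, Pi.pow_apply, Pi.mul_apply]
    field_simp
    norm_num
    ring
  refine ((hn.pow 2).div (((hm.const_add 1).pow 2).mul (((hm.const_add 1).pow 2).add h1))
    (mul_ne_zero (pow_ne_zero 2 hl) hB)).congr_deriv ?_
  simp only [Ys, FF, Pi.pow_apply, Pi.mul_apply, Pi.add_apply]
  have e : (8 * w ^ 2 * m w)⁻¹ = 2 * Bs w (m w) (n w) / n w ^ 2 := by
    rw [Bs]
    field_simp
    norm_num
  have e2 : (8 * (w : ℂ) ^ 2)⁻¹ = 2 * m w * Bs w (m w) (n w) / n w ^ 2 := by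
    rw [Bs]
    field_simp
    norm_num
  rw [div_eq_mul_inv (n w * N), e, div_eq_mul_inv (-n w), e2]
  generalize Bs w (m w) (n w) = B at hB ⊢
  field_simp
  norm_num
  ring

/-- the full operator, variables as in `exN` -/
def exE : Ex 10 := Ex.exN + (Ex.v 4 - Ex.v 3 + Ex.v 2 + 2 * Ex.v 0)

theorem ev_exE {R : Type*} [CommRing R] (V : Fin 10 → R) :
    exE.ev V = pE (V 6) (V 7) (V 8) (V 9) (V 0) (V 1) (V 2) (V 3) (V 4) (V 5) := by
  simp only [exE, Ex.ev_add, Ex.ev_sub, Ex.ev_mul, Ex.ev_v, Ex.ev_2, Ex.ev_exN]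
  ring

theorem bd2_exE : P218E2.bd2 exE = P218E2.bd2 Ex.exN := rfl

theorem co_algebraMap (c : ℂ) (k : ℤ) (w : ℝ) :
    (algebraMap ℂ WA c).co k w = if k = 0 then c else 0 := by
  rw [Algebra.algebraMap_eq_smul_one, WA.co_smul, WA.co_one]
  split_ifs <;> simp

theorem bd_algebraMap {c : ℂ} (hc : ‖c‖ ≤ 1) (S : Set ℝ) (b : ℝ → ℝ) :
    Bd S 1 b (algebraMap ℂ WA c) 1 :=
  Bd.of_mode0 zero_le_one (fun w _ => by simpa [co_algebraMap] using hc)
    fun k hk w _ => by simp [co_algebraMap, hk]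

theorem ev_algebraMap (c : ℂ) (w θ : ℝ) : (algebraMap ℂ WA c).ev w θ = c :=
  (WA.evA w θ).commutes c

namespace RJ

variable {a W ω y w : ℝ} {α : ℂ} {J : Fin 6 → WA}

theorem lv0 (h : RJ a W α J ω y) (hw : w ∈ Icc a W) : Lv w (1 - α * w) 0 := by
  have h0 := h.big
  have h1 : W / 32 ≤ w := by linarith [h.ge, hw.1]
  have h2 := P218CH.D_lower (by linarith) h0 (by linarith) hw.2 h.dom
  have h3 : 0 < 4000000 / W := by positivity
  have h4 := (abs_le.1 (Complex.abs_re_le_norm (1 - α * w - 4))).1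
  rw [sub_re, re_ofNat] at h4
  have h5 : 4000000 / W < (1 - α * w).re := by linarith
  rw [div_lt_iff₀ (by linarith)] at h5
  refine ⟨by linarith, by nlinarith, sq_le_of_disc (by linarith), ?_⟩
  rw [norm_zero, zero_mul]
  linarith

theorem dl_eq (h : RJ a W α J ω y) (hw : w ∈ Icc a W) :
    dl (Af α) w = (1 - α * w).re / ‖1 - α * w‖ := by
  have h1 := h.lv0 hw
  have h2 := h1.pos
  have h3 := h1.w_ge
  rw [dl, Af, norm_inv, inv_re, Complex.normSq_eq_norm_sq, norm_mul, norm_mul, h1.nw,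
    Complex.norm_ofNat, show 2 * (w : ℂ) = ((2 * w : ℝ) : ℂ) by push_cast; ring, re_ofReal_mul]
  field_simp

theorem co_le (h : RJ a W α J ω y) (hw : w ∈ Icc a W) (i : Fin 6) :
    ‖(J i).co 0 w‖ * ‖1 - α * w‖ ≤ (1 - α * w).re / 10000 := by
  have h1 := h.lv0 hw
  have h2 := (h.bd i).co_le 0 hw (by
    rw [P218EN.wt_zero, h.dl_eq hw]
    have := h1.re_pos
    positivity)
  rw [P218EN.wt_zero, h.dl_eq hw, one_mul, div_right_comm, le_div_iff₀ h1.pos] at h2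
  exact h2

theorem lv (h : RJ a W α J ω y) (hw : w ∈ Icc a W) (i : Fin 6) :
    Lv w (1 - α * w) ((J i).co 0 w) :=
  ⟨(h.lv0 hw).w_ge, (h.lv0 hw).re, (h.lv0 hw).sq, h.co_le hw i⟩

theorem bd1 (h : RJ a W α J ω y) (hw : w ∈ Icc a W) (i : Fin 6) :
    Bd {w} 1 (fun _ => ω) (J i) 1 :=
  ((h.bd i).subset (singleton_subset_iff.2 hw)).weaken' (fun u hu => by
    rw [mem_singleton_iff.1 hu, h.dl_eq hw, Pi.one_apply]
    have := (div_le_one (h.lv0 hw).pos).2 (Complex.re_le_norm (1 - α * w))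
    linarith) fun _ _ => le_rfl

theorem ef_le (h : RJ a W α J ω y) (hw : w ∈ Icc a W) : ‖ef α w‖ ≤ 1 / 100000 := by
  rw [ef_eq]
  exact (h.lv0 hw).m_le

theorem t_zero (h : RJ a W α J ω y) (hw : w ∈ Icc a W) :
    (J 1).co 0 w = 0 ∧ (J 2).co 0 w = 0 ∧ (J 5).co 0 w = 0 :=
  ⟨by simp [h.jet.t1 0 w hw], by simp [h.jet.t2 0 w hw], by simp [h.jet.t5 0 w hw]⟩

/-- the mode zero solves the rotationally symmetric equation up to `ω ^ 2` -/
theorem rad_eq (h : RJ a W α J ω y) (hw : w ∈ Icc a W) :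
    ‖pE (Af α w) (xf w) (ef α w) (Complex.sqrt (Af α w)) ((J 0).co 0 w) 0 0 ((J 3).co 0 w)
      ((J 4).co 0 w) 0‖ ≤ P218E2.bd2 Ex.exN * ω ^ 2 := by
  set V : Fin 10 → WA := ![J 0, J 1, J 2, J 3, J 4, J 5, algebraMap ℂ WA (Af α w),
    algebraMap ℂ WA (xf w), algebraMap ℂ WA (ef α w), algebraMap ℂ WA (Complex.sqrt (Af α w))]
    with hV
  have hl := h.lv0 hw
  have a1 : ‖Af α w‖ ≤ 1 := hl.A_le.trans (by norm_num)
  have a2 : ‖xf w‖ ≤ 1 := by
    rw [xf, norm_inv, norm_mul, hl.nw, Complex.norm_ofNat]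
    exact inv_le_one_of_one_le₀ (by linarith [hl.w_ge])
  have a3 : ‖Complex.sqrt (Af α w)‖ ≤ 1 := by
    rw [← P218EN.norm_csqrt_sq] at a1
    nlinarith [norm_nonneg (Complex.sqrt (Af α w))]
  have hb : ∀ i, Bd {w} 1 (fun _ => ω) (V i) 1 := fun i => by
    fin_cases i
    exacts [h.bd1 hw 0, h.bd1 hw 1, h.bd1 hw 2, h.bd1 hw 3, h.bd1 hw 4, h.bd1 hw 5,
      bd_algebraMap a1 _ _, bd_algebraMap a2 _ _,
      bd_algebraMap ((h.ef_le hw).trans (by norm_num)) _ _, bd_algebraMap a3 _ _]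
  have h1 := P218E2.co_zero_ev (fun _ _ => h.om0) (fun _ _ => h.om1.trans (by norm_num)) hb exE
    (mem_singleton w)
  have h2 : WEq {w} (exE.ev V) 0 := P218EN.wEq_iff.2 fun u hu θ => by
    rw [mem_singleton_iff.1 hu, WA.ev_zero, ← WA.evA_apply, Ex.map_ev, ev_exE, ← h.eq w hw θ]
    simp [hV]
  obtain ⟨t1, t2, t5⟩ := h.t_zero hw
  rw [h2 0 w (mem_singleton w), ev_exE, bd2_exE] at h1
  simpa [hV, co_algebraMap, t1, t2, t5] using h1

theorem d_m (h : RJ a W α J ω y) (hw : w ∈ Icc a W) :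
    HasDerivWithinAt (fun u : ℝ => mm u (1 - α * u) ((J 0).co 0 u))
      (-nn ((J 0).co 0 w) ((J 3).co 0 w) / (8 * w ^ 2)) (Icc a W) w := by
  have hl := h.lv0 hw
  have h1 := hl.w_ne
  have h2 := hl.v_ne
  have h3 := (hasDerivAt_ofReal' w).hasDerivWithinAt (s := Icc a W)
  refine ((((h3.const_mul α).const_sub 1).div (h3.const_mul 8) (by simpa using h1)).mul
    (((h.jet.d0 0 w hw).const_add 1).pow 2)).congr_deriv ?_
  simp only [nn, Af, Pi.pow_apply, Pi.div_apply]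
  field_simp
  norm_num
  ring

theorem d_n (h : RJ a W α J ω y) (hw : w ∈ Icc a W) :
    HasDerivWithinAt (fun u : ℝ => nn ((J 0).co 0 u) ((J 3).co 0 u))
      ((FF w (mm w (1 - α * w) ((J 0).co 0 w)) (nn ((J 0).co 0 w) ((J 3).co 0 w))
        - pE (Af α w) (xf w) (ef α w) (Complex.sqrt (Af α w)) ((J 0).co 0 w) 0 0 ((J 3).co 0 w)
          ((J 4).co 0 w) 0 / (1 + (J 0).co 0 w) ^ 2) / (1 + mm w (1 - α * w) ((J 0).co 0 w)) ^ 2)
      (Icc a W) w := by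
  have hl := h.lv hw 0
  have h1 := hl.w_ne
  have h2 := hl.v_ne
  have h3 := (hasDerivAt_ofReal' w).hasDerivWithinAt (s := Icc a W)
  have e : ∀ u ∈ Icc a W, (J 3).co 0 u = 2 * u * (1 - α * u) * (Af α u * (J 3).co 0 u) :=
    fun u hu => by
      rw [Af, mul_inv_cancel_left₀ (mul_ne_zero (mul_ne_zero two_ne_zero (h.lv0 hu).w_ne)
        (h.lv0 hu).v_ne)]
  have h4 := (((h3.const_mul 2).mul ((h3.const_mul α).const_sub 1)).mul
    (h.jet.d3 0 w hw)).congr e (e w hw)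
  have h5 := (h.jet.d0 0 w hw).const_add 1
  refine (h5.mul (h5.sub h4)).congr_deriv ?_
  have h6 := hl.h_ne
  have h7 := hl.l_ne
  rw [FF, hl.B_eq, eq_div_iff (pow_ne_zero 2 h7)]
  simp only [nn, mm, Af, xf, ef, pE, P218EN.pa11, P218EN.pa12, P218EN.pa22, P218EN.pb,
    P218EN.pb0, Pi.mul_apply, Pi.sub_apply]
  have e1 : α = (1 - (1 - α * w)) / w := by field_simp; ring
  generalize 1 - α * (w : ℂ) = v at h2 e1 ⊢
  rw [e1]
  field_simp
  ring

end RJ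

end Vale.Agent.P218TP
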