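import Vale.Agent.P218TP.RJ1

/-! # Transport of the tip function and boundary defect for solutions of the end equation -/

open Set Complex

namespace Vale.Agent.P218TP

open P218IN
open P218EN (WA Jet Bd WEq Af xf ef pE pB BB dl Ex L2 amean)

theorem L2_facts {A ε μ : ℂ} (hA : ‖A‖ ≤ 1 / 250000) (hε : ‖ε‖ ≤ 1 / 100000)
    (hμ : ‖μ - 1‖ ≤ 1 / 200) : DifferentiableAt ℂ (L2 A ε) μ ∧ ‖L2 A ε μ - 1‖ ≤ 1 / 50 := by
  have h1 : ‖μ‖ ≤ 2 := by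
    linarith [norm_add_le (μ - 1) 1, show ‖μ - 1 + 1‖ = ‖μ‖ by simp, norm_one (α := ℂ)]
  have h2 : ‖ε * μ‖ ≤ 1 / 100000 * 2 := by rw [norm_mul]; gcongr
  have h3 := mul_sub_one_le hμ (y := 1 - ε * μ) (s := 1 / 50000)
    (by rw [sub_sub_cancel_left, norm_neg]; linarith)
  have h4 := div_sub_one_le (x := 1) (r := 0) (by simp) h3 (by norm_num)
  have n1 : μ * (1 - ε * μ) ≠ 0 := fun h0 => by rw [h0] at h3; norm_num at h3
  rw [one_div] at h4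
  set i := (μ * (1 - ε * μ))⁻¹ with hi
  have h5 : ‖i‖ ≤ 2 := by
    linarith [norm_add_le (i - 1) 1, show ‖i - 1 + 1‖ = ‖i‖ by simp, norm_one (α := ℂ)]
  have h6 : ‖A * i‖ ≤ 1 / 250000 * 2 := by rw [norm_mul]; gcongr
  have h7 : ‖1 - 2 * ε * μ - 1‖ ≤ 1 / 10000 := by
    rw [sub_sub_cancel_left, norm_neg, mul_assoc, norm_mul, Complex.norm_ofNat]
    linarith
  have h8 : ‖1 + A * i / 2 - 1‖ ≤ 1 / 10000 := by
    rw [add_sub_cancel_left, norm_div, Complex.norm_ofNat]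
    linarith
  have h9 := (mul_sub_one_le (mul_sub_one_le h7 h7) (mul_sub_one_le h8 h8)).trans
    (show _ ≤ (1 / 1000 : ℝ) by norm_num)
  rw [← pow_two, ← pow_two] at h9
  set g := (1 - 2 * ε * μ) ^ 2 * (1 + A * i / 2) ^ 2 with hg
  have h10 : ‖1 - g * (A * i) - 1‖ ≤ 2 * (1 / 250000 * 2) := by
    rw [sub_sub_cancel_left, norm_neg, norm_mul]
    gcongr
    linarith [norm_add_le (g - 1) 1, show ‖g - 1 + 1‖ = ‖g‖ by simp, norm_one (α := ℂ)]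
  have n2 : 1 - g * (A * i) ≠ 0 := fun h0 => by rw [h0] at h10; norm_num at h10
  refine ⟨?_, (div_sub_one_le (mul_sub_one_le h9 h4) h10 (by norm_num)).trans (by norm_num)⟩
  unfold L2
  fun_prop (disch := assumption)

theorem L2_lip {A ε μ μ' : ℂ} (hA : ‖A‖ ≤ 1 / 250000) (hε : ‖ε‖ ≤ 1 / 100000)
    (hμ : ‖μ - 1‖ ≤ 1 / 400) (h : ‖μ' - μ‖ < 1 / 400) :
    ‖L2 A ε μ' - L2 A ε μ‖ ≤ 16 * ‖μ' - μ‖ := by
  have hm : ∀ z ∈ Metric.ball μ (1 / 400), ‖z - 1‖ ≤ 1 / 200 := fun z hz => by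
    linarith [norm_sub_le_norm_sub_add_norm_sub z μ 1, mem_ball_iff_norm.1 hz]
  have := Complex.dist_le_div_mul_dist_of_mapsTo_ball (R₂ := 1 / 25)
    (fun z hz => (L2_facts hA hε (hm z hz)).1.differentiableWithinAt) (fun z hz => by
      rw [mem_closedBall_iff_norm]
      linarith [norm_sub_le (L2 A ε z - 1) (L2 A ε μ - 1), (L2_facts hA hε (hm z hz)).2,
        (L2_facts hA hε (μ := μ) (by linarith)).2, congrArg norm
        (sub_sub_sub_cancel_right (L2 A ε z) (L2 A ε μ) 1)]) (mem_ball_iff_norm.2 h)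
  rw [dist_eq_norm, dist_eq_norm] at this
  linarith

theorem second_order {ε h z : ℂ} (hε : ‖ε‖ ≤ 1 / 100000) (hh : ‖h‖ ≤ 10001 / 10000)
    (hz : ‖z‖ ≤ 1 / 10000) : ‖(h + z) ^ 2 / (1 + ε * (h + z) ^ 2) - h ^ 2 / (1 + ε * h ^ 2)
      - 2 * h / (1 + ε * h ^ 2) ^ 2 * z‖ ≤ 2 * ‖z‖ ^ 2 ∧ 1 + ε * (h + z) ^ 2 ≠ 0 := by
  have k : ∀ x : ℂ, ‖x‖ ≤ 2 → 99 / 100 ≤ ‖1 + ε * x ^ 2‖ := fun x hx => by
    have : ‖ε * x ^ 2‖ ≤ 1 / 100000 * 2 ^ 2 := by rw [norm_mul, norm_pow]; gcongr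
    linarith [norm_sub_le (1 + ε * x ^ 2) (ε * x ^ 2), show ‖1 + ε * x ^ 2 - ε * x ^ 2‖ = 1 by simp]
  have h1 := k h (by linarith)
  have h2 := k (h + z) (by linarith [norm_add_le h z])
  have n1 : 1 + ε * h ^ 2 ≠ 0 := norm_pos_iff.1 (by linarith)
  have n2 : 1 + ε * (h + z) ^ 2 ≠ 0 := norm_pos_iff.1 (by linarith)
  refine ⟨?_, n2⟩
  have e : ∀ l l0 : ℂ, l ≠ 0 → l0 ≠ 0 → (h + z) ^ 2 / l - h ^ 2 / l0 - 2 * h / l0 ^ 2 * z
      = ((h + z) ^ 2 * l0 ^ 2 - h ^ 2 * l * l0 - 2 * h * z * l) / (l * l0 ^ 2) := fun l l0 _ _ => by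
    field_simp
  rw [e _ _ n2 n1, show (h + z) ^ 2 * (1 + ε * h ^ 2) ^ 2 - h ^ 2 * (1 + ε * (h + z) ^ 2)
    * (1 + ε * h ^ 2) - 2 * h * z * (1 + ε * (h + z) ^ 2) = (1 - ε * (h * (3 * h + 2 * z))) * z ^ 2
    by ring, norm_div, norm_mul, norm_mul, norm_pow, norm_pow, div_le_iff₀ (by positivity)]
  have h3 : ‖ε * (h * (3 * h + 2 * z))‖ ≤ 1 / 100000 * (2 * 4) := by
    have := norm_add_le (3 * h) (2 * z)
    simp only [norm_mul, Complex.norm_ofNat] at this ⊢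
    gcongr <;> linarith
  calc _ ≤ 11 / 10 * ‖z‖ ^ 2 := by
        gcongr
        linarith [norm_sub_le 1 (ε * (h * (3 * h + 2 * z))), norm_one (α := ℂ)]
    _ ≤ 2 * ‖z‖ ^ 2 * (99 / 100 * (99 / 100) ^ 2) := by linarith [sq_nonneg ‖z‖]
    _ ≤ _ := by gcongr

theorem amean_sub_le {x : WA} {w ω : ℝ} {α : ℂ} {b : ℝ → ℝ} (hx : Bd {w} b (fun _ => ω) x 1)
    (h0 : 0 ≤ ω) (h1 : ω ≤ 1 / 10000) (hε : ‖ef α w‖ ≤ 1 / 100000)
    (hh : ‖1 + x.co 0 w‖ ≤ 10001 / 10000) :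
    ‖amean w α x - (1 + x.co 0 w) ^ 2 / (1 + ef α w * (1 + x.co 0 w) ^ 2)‖ ≤ 2 * ω ^ 2 := by
  set h := 1 + x.co 0 w with hh'
  set ε := ef α w
  have hz : ∀ θ, ‖x.ev w θ - x.co 0 w‖ ≤ ω := fun θ => by
    simpa using hx.ev_sub_le (mem_singleton w) h0 θ
  have e : ∀ θ, h + (x.ev w θ - x.co 0 w) = 1 + x.ev w θ := fun θ => by rw [hh']; ring
  have k := fun θ => second_order hε hh ((hz θ).trans h1)
  simp only [e] at k
  have c1 : Continuous fun θ => x.ev w θ := x.continuous_ev.comp (Continuous.prodMk_right w)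
  have c2 : Continuous fun θ => (1 + x.ev w θ) ^ 2 / (1 + ε * (1 + x.ev w θ) ^ 2) :=
    Continuous.div (by fun_prop) (by fun_prop) fun θ => (k θ).2
  have i1 := x.integral_ev w 0
  simp only [neg_zero, WA.ch_zero, mul_one] at i1
  have hp := Real.pi_pos
  have n1 : (2 * Real.pi : ℂ) ≠ 0 := mul_ne_zero two_ne_zero (by exact_mod_cast hp.ne')
  have i2 := intervalIntegral.norm_integral_le_of_norm_le_const (a := 0) (b := 2 * Real.pi)
    (C := 2 * ω ^ 2) fun θ _ => (k θ).1.trans (by gcongr; exact hz θ)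
  rw [intervalIntegral.integral_sub ((c2.intervalIntegrable _ _).sub intervalIntegrable_const)
    (Continuous.intervalIntegrable (by fun_prop) _ _), intervalIntegral.integral_sub
    (c2.intervalIntegrable _ _) intervalIntegrable_const, intervalIntegral.integral_const_mul,
    intervalIntegral.integral_sub (c1.intervalIntegrable _ _) intervalIntegrable_const, i1,
    intervalIntegral.integral_const, intervalIntegral.integral_const, sub_zero,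
    abs_of_pos (by positivity), Complex.real_smul, Complex.real_smul] at i2
  push_cast at i2
  rw [sub_self, mul_zero, sub_zero] at i2
  rw [amean, ← inv_mul_cancel_left₀ n1 (h ^ 2 / _), ← mul_sub, norm_mul, norm_inv, norm_mul,
    Complex.norm_ofNat, Complex.norm_real, Real.norm_of_nonneg hp.le,
    inv_mul_le_iff₀ (by positivity)]
  linarith

/-- the boundary operator, variables as in `exD` -/
def exB : Ex 5 := Ex.exD - 2 * (Ex.v 2 - Ex.v 0)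

theorem ev_exB {R : Type*} [CommRing R] (V : Fin 5 → R) :
    exB.ev V = pB (V 3) (V 4) (V 0) (V 1) (V 2) := by
  simp only [exB, Ex.ev_sub, Ex.ev_mul, Ex.ev_v, Ex.ev_2, Ex.ev_exD]
  ring

theorem bd2_exB : P218E2.bd2 exB = P218E2.bd2 Ex.exD := rfl

theorem Lv.bc_id {w : ℝ} {v η p : ℂ} (h : Lv w v η) (hp : ‖p‖ ≤ 1 / 10000) :
    (Ys w (mm w v η) (nn η p) - YB w (Vs w (mm w v η)))
      * ((1 + mm w v η) ^ 2 * ((1 + mm w v η) ^ 2 + Bs w (mm w v η) (nn η p)))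
      = (nn η p ^ 2 - L2 (2 * w * v)⁻¹ (v / (8 * w)) ((1 + η) ^ 2 / (1 + mm w v η))
        * ((1 + mm w v η) ^ 2 * (1 + η) ^ 2)) * (1 - YB w (Vs w (mm w v η)) / Vs w (mm w v η)) ∧
    ‖1 - YB w (Vs w (mm w v η)) / Vs w (mm w v η) - 1‖ ≤ 1 / 1000 := by
  have h1 := h.w_ne
  have h2 := h.v_ne
  have h3 := h.h_ne
  have h4 := h.l_ne
  have h5 := h.lB_ne hp
  have h6 := Om.v_ne h.st.om
  have hP : ‖1 - YB w (Vs w (mm w v η)) / Vs w (mm w v η) - 1‖ ≤ 1 / 1000 := by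
    rw [sub_sub_cancel_left, norm_neg, div_eq_mul_inv, norm_mul, norm_inv]
    nlinarith [h.st.pw.Y_le, h.YB_sub.2.2.2, norm_nonneg (YB w (Vs w (mm w v η))),
      inv_nonneg.2 (norm_nonneg (Vs w (mm w v η)))]
  have h7 : 1 - YB w (Vs w (mm w v η)) / Vs w (mm w v η) ≠ 0 := fun h0 => by
    rw [h0] at hP
    norm_num at hP
  refine ⟨?_, hP⟩
  have e0 : v / (8 * w) * ((1 + η) ^ 2 / (1 + mm w v η)) = mm w v η / (1 + mm w v η) := by
    rw [← mul_div_assoc, ← mm]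
  have e1 : (2 * w * v)⁻¹ * ((1 + η) ^ 2 / (1 + mm w v η) * (1 - mm w v η / (1 + mm w v η)))⁻¹
      = (Vs w (mm w v η))⁻¹ := by
    rw [h.V_eq, ← mul_inv]
    congr 2
    field_simp
    ring
  have e2 : (1 - 2 * (mm w v η / (1 + mm w v η))) ^ 2 * (1 + (Vs w (mm w v η))⁻¹ / 2) ^ 2
      = YB w (Vs w (mm w v η)) := by
    rw [YB, Yb]
    congr 1
    · rw [Vs]
      field_simp
      ring
    · ring
  have e3 : ((1 + η) ^ 2 / (1 + mm w v η) * (1 - mm w v η / (1 + mm w v η)))⁻¹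
      = (1 + mm w v η) ^ 2 / (1 + η) ^ 2 := by
    rw [← inv_div]
    field_simp
    ring
  have e4 : Bs w (mm w v η) (nn η p) = nn η p ^ 2 / (Vs w (mm w v η) * (1 + mm w v η) ^ 2) := by
    rw [Bs, Vs, div_mul_cancel₀ _ (pow_ne_zero 2 h4)]
  rw [L2, mul_assoc 2 (v / (8 * w)), e0, e1, e2, e3, ← div_eq_mul_inv, Ys,
    sub_mul, div_mul_cancel₀ _ (mul_ne_zero (pow_ne_zero 2 h4) h5), e4]
  simp only at h6
  generalize YB w (Vs w (mm w v η)) = y at h7 ⊢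
  generalize Vs w (mm w v η) = V at h6 h7 ⊢
  rw [sub_mul _ _ (1 - y / V), mul_right_comm, div_mul_cancel₀ _ h7]
  field_simp
  ring

namespace RJ

variable {a W ω y w : ℝ} {α : ℂ} {J : Fin 6 → WA}

/-- the state `V` -/
noncomputable def VJ (α : ℂ) (J : Fin 6 → WA) (w : ℝ) : ℂ := Vs w (mm w (1 - α * w) ((J 0).co 0 w))

/-- the state `Y` -/
noncomputable def YJ (α : ℂ) (J : Fin 6 → WA) (w : ℝ) : ℂ :=
  Ys w (mm w (1 - α * w) ((J 0).co 0 w)) (nn ((J 0).co 0 w) ((J 3).co 0 w))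

theorem p_le (h : RJ a W α J ω y) (hw : w ∈ Icc a W) : ‖(J 3).co 0 w‖ ≤ 1 / 10000 :=
  (h.lv hw 3).eta_le

theorem bc_cmp (h : RJ a W α J ω y) (hw : w ∈ Icc a W) :
    ‖YJ α J w - YB w (VJ α J w)‖ ≤ 2 * (‖(BB w α J).co 0 w‖ + (P218E2.bd2 Ex.exD + 40) * ω ^ 2) ∧
    ‖(BB w α J).co 0 w‖ ≤ 2 * ‖YJ α J w - YB w (VJ α J w)‖ + (P218E2.bd2 Ex.exD + 40) * ω ^ 2 := by
  have hl := h.lv hw 0
  have hp := h.p_le hw
  have a1 := amean_sub_le (h.bd1 hw 0) h.om0 h.om1 (h.ef_le hw) hl.h_le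
  have a2 : ω ^ 2 ≤ (1 / 10000) ^ 2 := by gcongr; exacts [h.om0, h.om1]
  obtain ⟨i1, i2⟩ := hl.bc_id hp
  change ‖_ - (1 + (J 0).co 0 w) ^ 2 / (1 + mm w (1 - α * w) ((J 0).co 0 w))‖ ≤ _ at a1
  change (YJ α J w - YB w (VJ α J w)) * _ = (_ - L2 (Af α w) (ef α w) _ * _) * _ at i1
  set η := (J 0).co 0 w with hη
  set p := (J 3).co 0 w with hp'
  set m := mm w (1 - α * w) η with hm
  have b1 : ‖1 + η - 1‖ ≤ 1 / 10000 := by simpa using hl.eta_le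
  have b2 : ‖(1 + η) ^ 2 / (1 + m) - 1‖ ≤ 1 / 1000 := by
    rw [pow_two]
    exact (div_sub_one_le (mul_sub_one_le b1 b1) (s := 1 / 100000) (by simpa using hl.m_le)
      (by norm_num)).trans (by norm_num)
  have b3 := L2_lip hl.A_le (h.ef_le hw) (b2.trans (by norm_num)) (a1.trans_lt (by linarith))
  have b4 := (L2_facts hl.A_le (h.ef_le hw) (μ := amean w α (J 0)) (by
    linarith [norm_sub_le_norm_sub_add_norm_sub (amean w α (J 0)) ((1 + η) ^ 2 / (1 + m)) 1])).2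
  change ‖L2 (Af α w) _ _ - L2 (Af α w) _ _‖ ≤ _ at b3
  change ‖L2 (Af α w) _ _ - 1‖ ≤ _ at b4
  set L := L2 (Af α w) (ef α w) (amean w α (J 0)) with hL
  set L0 := L2 (Af α w) (ef α w) ((1 + η) ^ 2 / (1 + m))
  have hb : ∀ i, Bd {w} 1 (fun _ => ω) (P218EN.vD (ef α w) (L - 1) J i) 1 := fun i => by
    fin_cases i
    exacts [h.bd1 hw 0, h.bd1 hw 1, h.bd1 hw 3,
      bd_algebraMap ((h.ef_le hw).trans (by norm_num)) _ _,
      bd_algebraMap (b4.trans (by norm_num)) _ _]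
  have c1 := P218E2.co_zero_ev (fun _ _ => h.om0) (fun _ _ => h.om1.trans (by norm_num)) hb exB
    (mem_singleton w)
  have c2 : ‖(BB w α J).co 0 w - (nn η p ^ 2 - L * ((1 + m) ^ 2 * (1 + η) ^ 2))‖
      ≤ P218E2.bd2 Ex.exD * ω ^ 2 := by
    rw [ev_exB, ev_exB, bd2_exB] at c1
    change ‖(BB w α J).co 0 w - pB ((algebraMap ℂ WA (ef α w)).co 0 w)
      ((algebraMap ℂ WA (L - 1)).co 0 w) η ((J 1).co 0 w) p‖ ≤ _ at c1
    rw [co_algebraMap, co_algebraMap, if_pos rfl, if_pos rfl, (h.t_zero hw).1] at c1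
    rwa [show nn η p ^ 2 - L * ((1 + m) ^ 2 * (1 + η) ^ 2) = pB (ef α w) (L - 1) η 0 p by
      simp only [pB, nn, hm, mm, ef]; ring]
  have c3 : ‖(L - L0) * ((1 + m) ^ 2 * (1 + η) ^ 2)‖
      ≤ 16 * (2 * ω ^ 2) * ((10001 / 10000) ^ 2 * (10001 / 10000) ^ 2) := by
    rw [norm_mul, norm_mul, norm_pow, norm_pow]
    gcongr
    exacts [b3.trans (by linarith), hl.l_le, hl.h_le]
  have c4 : ‖(BB w α J).co 0 w - (nn η p ^ 2 - L0 * ((1 + m) ^ 2 * (1 + η) ^ 2))‖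
      ≤ (P218E2.bd2 Ex.exD + 40) * ω ^ 2 := by
    have := norm_sub_le ((BB w α J).co 0 w - (nn η p ^ 2 - L * ((1 + m) ^ 2 * (1 + η) ^ 2)))
      ((L - L0) * ((1 + m) ^ 2 * (1 + η) ^ 2))
    rw [show ∀ b : ℂ, b - (nn η p ^ 2 - L * ((1 + m) ^ 2 * (1 + η) ^ 2)) - (L - L0) * ((1 + m) ^ 2
      * (1 + η) ^ 2) = b - (nn η p ^ 2 - L0 * ((1 + m) ^ 2 * (1 + η) ^ 2)) from fun b => by
        ring] at this
    linarith [sq_nonneg ω]
  have d1 := (mul_sub_one_le hl.l2_le (hl.lB_le hp)).trans (show _ ≤ (1 / 1000 : ℝ) by norm_num)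
  have k : ∀ x : ℂ, ‖x - 1‖ ≤ 1 / 1000 → 999 / 1000 ≤ ‖x‖ ∧ ‖x‖ ≤ 1001 / 1000 := fun x hx => by
    have := abs_le.1 ((abs_norm_sub_norm_le x 1).trans hx)
    rw [norm_one] at this
    constructor <;> linarith
  have d2 := congrArg norm i1
  rw [norm_mul, norm_mul (_ - _)] at d2
  obtain ⟨k1, k2⟩ := k _ d1
  obtain ⟨k3, k4⟩ := k _ i2
  have d3 := abs_le.1 ((abs_norm_sub_norm_le _ _).trans c4)
  have p1 := norm_nonneg (YJ α J w - YB w (VJ α J w))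
  have p2 := norm_nonneg (nn η p ^ 2 - L0 * ((1 + m) ^ 2 * (1 + η) ^ 2))
  constructor <;> nlinarith [mul_le_mul_of_nonneg_left k1 p1, mul_le_mul_of_nonneg_left k2 p1,
    mul_le_mul_of_nonneg_left k3 p2, mul_le_mul_of_nonneg_left k4 p2]

theorem rad (h : RJ a W α J ω y) : ∃ γ ρ, Rad a W α (VJ α J) (YJ α J) γ ρ
    (3 * P218E2.bd2 Ex.exN * ω ^ 2) (2 * (y + (P218E2.bd2 Ex.exD + 40) * ω ^ 2)) := by
  have h0 := h.big
  set m : ℝ → ℂ := fun w => mm w (1 - α * w) ((J 0).co 0 w) with hm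
  set n : ℝ → ℂ := fun w => nn ((J 0).co 0 w) ((J 3).co 0 w) with hn
  have e : ∀ w ∈ Icc a W, ∀ g : ℂ, 2 * g * (n w / (1 + m w) ^ 2)
      = 2 * g * YJ α J w / sg (VJ α J w) (YJ α J w) := fun w hw g => by
    have h1 := (h.lv hw 0).lB_ne (h.p_le hw)
    have h2 := (h.lv hw 0).n_ne (h.p_le hw)
    have h3 := (h.lv hw 0).l_ne
    rw [VJ, YJ, (h.lv hw 0).sg_eq (h.p_le hw), Ys]
    simp only [hm, hn]
    field_simp
  have hW : W ∈ Icc a W := ⟨h.le, le_rfl⟩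
  refine ⟨fun w => (1 - m w) / (1 + m w), fun w => -(2 * n w * pE (Af α w) (xf w) (ef α w)
    (Complex.sqrt (Af α w)) ((J 0).co 0 w) 0 0 ((J 3).co 0 w) ((J 4).co 0 w) 0
      / (((1 + m w) ^ 2 + Bs w (m w) (n w)) ^ 2 * (1 + (J 0).co 0 w) ^ 2 * (1 + m w) ^ 2)),
    by linarith [h.ge], h.le, h.ge, ?_, fun w hw => ?_, fun w hw => ?_, fun w hw => ⟨?_, ?_⟩,
    fun w hw => ?_, fun w hw => (h.lv hw 0).Y_le (h.p_le hw), fun w hw => ?_, ?_, ?_⟩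
  · refine lt_of_lt_of_le ?_ (P218CH.re_ge_sq (by linarith) (by norm_num) (by linarith) h.dom)
    rw [add_lt_add_iff_left, div_lt_div_iff₀ (by linarith) (by linarith)]
    linarith
  · rw [← e w hw]
    exact hasDeriv_Vs (h.d_m hw) (h.lv0 hw).w_ne (h.lv hw 0).l_ne
  · have hl := h.lv hw 0
    rw [← e w hw]
    refine (hasDeriv_Ys (m := m) (n := n) (h.d_m hw) (h.d_n hw) hl.w_ne hl.m_ne
      (hl.n_ne (h.p_le hw)) hl.l_ne (hl.lB_ne (h.p_le hw))).congr_deriv ?_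
    simp only [YJ, hm, hn, div_eq_mul_inv, mul_inv]
    ring
  · have h1 := (h.lv hw 0).w_ne
    have h2 := (h.lv hw 0).l_ne
    simp only [VJ, Vs, hm]
    field_simp
    ring
  · have := (h.lv hw 0).m_le
    linarith [re_ge_of_norm_sub_one_le (div_sub_one_le (x := 1 - m w) (y := 1 + m w)
      (r := 1 / 100000) (s := 1 / 100000) (by simpa using this) (by simpa using this)
      (by norm_num))]
  · have hl := h.lv hw 0
    refine hl.near.trans ?_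
    rw [m0, show 2 * (w : ℂ) = ((2 * w : ℝ) : ℂ) by push_cast; ring, re_ofReal_mul]
    linarith [hl.re]
  · have hl := h.lv hw 0
    have h1 := hl.lB_ge (h.p_le hw)
    have h2 := hl.h_ge
    have h3 := hl.l_ge
    have h4 : ‖n w‖ ≤ 11 / 10 := by
      linarith [norm_add_le (n w - 1) 1, show ‖n w - 1 + 1‖ = ‖n w‖ by simp, norm_one (α := ℂ),
        show ‖n w - 1‖ ≤ _ from hl.n_le (h.p_le hw)]
    simp only [norm_neg, norm_div, norm_mul, norm_pow, Complex.norm_ofNat]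
    calc _ ≤ 2 * (11 / 10) * (P218E2.bd2 Ex.exN * ω ^ 2)
          / ((9999 / 10000) ^ 2 * (9999 / 10000) ^ 2 * (9999 / 10000) ^ 2) := by
          gcongr
          exact h.rad_eq hw
      _ ≤ _ := by
          rw [div_le_iff₀ (by norm_num)]
          have : 0 ≤ (P218E2.bd2 Ex.exN : ℝ) * ω ^ 2 := by positivity
          linarith
  · have := (norm_nonneg _).trans h.bc
    positivity
  · obtain ⟨-, h1, h2, -⟩ := (h.lv hW 0).YB_sub
    have h3 := (h.bc_cmp hW).1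
    change ‖YB W (VJ α J W) - Yb (VJ α J W)‖ ≤ 80 * ‖VJ α J W‖⁻¹ at h1
    change ‖Yb (VJ α J W) - 1‖ ≤ 2 * ‖VJ α J W‖⁻¹ at h2
    have : 0 ≤ 3 * (P218E2.bd2 Ex.exN : ℝ) * ω ^ 2 := by positivity
    linarith [norm_sub_le_norm_sub_add_norm_sub (YJ α J W) (YB W (VJ α J W)) 1, h.bc,
      norm_sub_le_norm_sub_add_norm_sub (YB W (VJ α J W)) (Yb (VJ α J W)) 1,
      inv_nonneg.2 (norm_nonneg (VJ α J W))]

theorem GG_rpin (h : RJ a W α J ω y) (hw : w ∈ Icc a W) :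
    GG w (rpin α J w) = gT w (VJ α J w) (YB w (VJ α J w)) := by
  have := (h.lv0 hw).w_ne
  have e : ef (rpin α J w) w = mm w (1 - α * w) ((J 0).co 0 w) := by
    rw [ef, rpin, mm]
    field_simp
    ring
  rw [GG, VW, e, VJ]

end RJ

theorem Rad.YB_le {a W : ℝ} {α : ℂ} {V Y γ ρ : ℝ → ℂ} {ρ0 y0 w : ℝ}
    (h : Rad a W α V Y γ ρ ρ0 y0) (hw : w ∈ Icc a W) :
    ‖Y w - YB w (V w)‖ ≤ 100100 * (mw α W w)⁻¹ ^ 2 + 4 * ρ0
      + (1200 * (mw α W w)⁻¹ + y0) * Real.exp ((w - W) / 2) := by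
  have h1 := h.delta_le hw
  have hp := h.pw hw
  have h2 := hp.w_ne
  have h3 := Om.v_ne hp.om
  have h4 := hp.t_pos
  have h5 : 0 < w⁻¹ := by have := hp.w_gt; positivity
  simp only at h3
  set t := (mw α W w)⁻¹
  have h6 : ‖(V w)⁻¹ ^ 2 / 4‖ ≤ (2 * t) ^ 2 / 4 := by
    rw [norm_div, norm_pow, norm_inv, Complex.norm_ofNat]
    gcongr
    exact hp.inv_le
  have h7 : ‖(w : ℂ)⁻¹ ^ 2 * (1 / 4 + (V w)⁻¹ / 16)‖ ≤ (16 * t) ^ 2 * (1 / 3) := by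
    have := norm_add_le (1 / 4) ((V w)⁻¹ / 16)
    simp only [norm_div, norm_one, norm_inv, Complex.norm_ofNat] at this
    rw [norm_mul, norm_pow, norm_inv, hp.nw]
    gcongr
    exacts [hp.nu_le, by linarith [hp.inv_le, hp.t_le]]
  rw [show Y w - YB w (V w) = (Y w - 1 - ((V w)⁻¹ - V w / (4 * w ^ 2)))
    - ((V w)⁻¹ ^ 2 / 4 - (w : ℂ)⁻¹ ^ 2 * (1 / 4 + (V w)⁻¹ / 16)) by rw [YB, Yb]; field_simp; ring]
  refine (norm_sub_le _ _).trans ?_
  nlinarith [norm_sub_le ((V w)⁻¹ ^ 2 / 4) ((w : ℂ)⁻¹ ^ 2 * (1 / 4 + (V w)⁻¹ / 16))]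

namespace RJ

variable {a W ω y w : ℝ} {α : ℂ} {J : Fin 6 → WA}

/-- **boundary defect of the restriction** -/
theorem bc_le (h : RJ a W α J ω y) (hw : w ∈ Icc a W) : ‖(BB w α J).co 0 w‖
    ≤ cT * (‖Af α w‖ ^ 2 + ω ^ 2 + (‖Af α w‖ + y) * Real.exp ((w - W) / 2)) := by
  obtain ⟨γ, ρ, hr⟩ := h.rad
  have h1 := hr.YB_le hw
  have h2 := (h.bc_cmp hw).2
  have h3 : (mw α W w)⁻¹ ≤ ‖Af α w‖ := by
    rw [Af, norm_inv]
    exact inv_anti₀ (norm_pos_iff.2 (mul_ne_zero (mul_ne_zero two_ne_zero (h.lv0 hw).w_ne)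
      (h.lv0 hw).v_ne)) (m0_facts (by norm_num) hr.dom (by linarith [hr.w_gt hw]) hw.2).1
  have h4 := (hr.pw hw).t_pos
  have h5 : (mw α W w)⁻¹ ^ 2 ≤ ‖Af α w‖ ^ 2 := by gcongr
  have h6 := Real.exp_pos ((w - W) / 2)
  have h7 : Real.exp ((w - W) / 2) ≤ 1 := Real.exp_le_one_iff.2 (by linarith [hw.2])
  have h8 := (norm_nonneg _).trans h.bc
  rw [cT]
  generalize Real.exp ((w - W) / 2) = E at *
  have hN : (0 : ℝ) ≤ P218E2.bd2 Ex.exN := by positivity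
  have hD : (0 : ℝ) ≤ P218E2.bd2 Ex.exD := by positivity
  generalize (P218E2.bd2 Ex.exN : ℝ) = N at *
  generalize (P218E2.bd2 Ex.exD : ℝ) = D at *
  have p1 : 0 ≤ (N + D) * (‖Af α w‖ ^ 2 + (‖Af α w‖ + y) * E) := by positivity
  have p2 := mul_le_of_le_one_right (show 0 ≤ (D + 40) * ω ^ 2 by positivity) h7
  have p3 := mul_le_mul_of_nonneg_right h3 h6.le
  have p4 : 0 ≤ N * ω ^ 2 := by positivity
  have p5 : 0 ≤ D * ω ^ 2 := by positivity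
  have p6 : 0 ≤ y * E := by positivity
  have p7 : 0 ≤ ‖Af α w‖ * E := by positivity
  nlinarith [sq_nonneg ω, sq_nonneg ‖Af α w‖]

/-- **transport of the tip function** -/
theorem transport (h : RJ a W α J ω y) (hw : w ∈ Icc a (W / 2)) :
    ‖GG w (rpin α J w) - GG W (rpin α J W)‖ ≤ cT * ((√W)⁻¹ + ω ^ 2 * W + y) / W ^ 2 := by
  obtain ⟨γ, ρ, hr⟩ := h.rad
  have h0 := h.big
  have hw' : w ∈ Icc a W := ⟨hw.1, by linarith [hw.2]⟩
  have hW : W ∈ Icc a W := ⟨h.le, le_rfl⟩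
  have h1 := hr.transport hw'
  have h2 := gT_lip (h.lv hW 0).st ((h.lv hW 0).st' (h.p_le hW))
  have h3 := gT_lip (h.lv hw' 0).st ((h.lv hw' 0).st' (h.p_le hw'))
  have h4 := (h.bc_cmp hW).1
  have h5 := hr.YB_le hw'
  change ‖gT W (VJ α J W) (YB W (VJ α J W)) - gT W (VJ α J W) (YJ α J W)‖
    ≤ 30000 * ‖YB W (VJ α J W) - YJ α J W‖ / W ^ 2 at h2
  change ‖gT w (VJ α J w) (YB w (VJ α J w)) - gT w (VJ α J w) (YJ α J w)‖
    ≤ 30000 * ‖YB w (VJ α J w) - YJ α J w‖ / w ^ 2 at h3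
  rw [norm_sub_rev (YB _ _)] at h2 h3
  rw [norm_sub_rev] at h1 h2
  have w1 : W / 32 ≤ w := by linarith [h.ge, hw.1]
  have s1 : 0 < √W := Real.sqrt_pos.2 (by linarith)
  have s2 : √W ≤ W := Real.sqrt_le_self_iff.2 (Or.inr (by linarith))
  have t0 := (hr.pw hw').t_pos
  have t1 := (hr.pw hw').t_le
  have t2 : (mw α W w)⁻¹ ≤ 32 * (√W)⁻¹ := by
    have e1 : w / W ≤ 1 / 2 := by rw [div_le_iff₀ (by linarith)]; linarith [hw.2]
    have e2 : 0 ≤ w / W * ‖1 - α * W‖ := by have : 0 < w := by linarith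
                                            positivity
    rw [← div_eq_mul_inv, inv_eq_one_div, div_le_div_iff₀ (inv_pos.1 t0) s1, mw]
    nlinarith
  have h6 : Real.exp ((w - W) / 2) ≤ 1 := Real.exp_le_one_iff.2 (by linarith [hw'.2])
  have h7 := mul_le_of_le_one_right (add_nonneg (mul_nonneg (show (0 : ℝ) ≤ 1200 by norm_num)
    t0.le) hr.y0_nonneg) h6
  have h8 : 30000 * ‖RJ.YJ α J w - YB w (VJ α J w)‖ / w ^ 2
      ≤ 30000 * ‖RJ.YJ α J w - YB w (VJ α J w)‖ / (W / 32) ^ 2 := by gcongr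
  rw [h.GG_rpin hw', h.GG_rpin hW]
  refine (norm_sub_le_norm_sub_add_norm_sub _ _ _).trans ((add_le_add (h3.trans h8)
    ((norm_sub_le_norm_sub_add_norm_sub _ _ _).trans (add_le_add h1 h2))).trans ?_)
  rw [div_pow, div_div_eq_mul_div, ← add_div, ← add_div, cT]
  gcongr ?_ / _
  have h9 := (norm_nonneg _).trans h.bc
  have hN : (0 : ℝ) ≤ P218E2.bd2 Ex.exN := by positivity
  have hD : (0 : ℝ) ≤ P218E2.bd2 Ex.exD := by positivity
  generalize (P218E2.bd2 Ex.exN : ℝ) = N at *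
  generalize (P218E2.bd2 Ex.exD : ℝ) = D at *
  have p0 : 0 < (√W)⁻¹ := by positivity
  have p1 : 0 ≤ (N + D) * ((√W)⁻¹ + y) := by positivity
  have p2 : ω ^ 2 ≤ ω ^ 2 * W := le_mul_of_one_le_right (sq_nonneg ω) (by linarith)
  have p3 := mul_le_mul_of_nonneg_left p2 hN
  have p4 := mul_le_mul_of_nonneg_left p2 hD
  have p5 : 0 ≤ N * ω ^ 2 := by positivity
  have p6 : 0 ≤ D * ω ^ 2 := by positivity
  have p7 : (mw α W w)⁻¹ ^ 2 ≤ (mw α W w)⁻¹ := by nlinarith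
  linarith [h.bc, sq_nonneg ω]

end RJ

end Vale.Agent.P218TP
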