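import Vale.Agent.P218TP.Sharp

/-! # A priori bounds for rotationally symmetric states -/

open Set Metric Filter Topology Complex

namespace Vale.Agent.P218TP

open P218IN

/-- a smooth majorant of `‖m0 α w‖` -/
noncomputable def mw (α : ℂ) (W w : ℝ) : ℝ := 2 * w * (1 - w / W + w / W * ‖1 - α * W‖)

theorem DD.norm_lt {W K : ℝ} {α : ℂ} (hW : 0 < W) (hK : 0 ≤ K) (h : α ∈ DD W K) :
    ‖1 - α * W‖ < 8 ∧ K / W < (1 - α * W).re ∧ K < 2 * W := by
  have h1 : ‖1 - α * W‖ ^ 2 / 8 + K / W < (1 - α * W).re := h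
  have h2 := Complex.re_le_norm (1 - α * W)
  have h3 : 0 ≤ K / W := by positivity
  have h4 := norm_nonneg (1 - α * W)
  refine ⟨by nlinarith, by nlinarith, ?_⟩
  rw [← div_lt_iff₀ hW]
  nlinarith [sq_nonneg (‖1 - α * W‖ - 4)]

theorem m0_facts {W K w : ℝ} {α : ℂ} (hK : 0 ≤ K) (h : α ∈ DD W K) (hw : 0 < w) (hwW : w ≤ W) :
    ‖m0 α w‖ ≤ mw α W w ∧ mw α W w ≤ 3 / 2 * ‖m0 α w‖ ∧ mw α W w ≤ 16 * w ∧
      2 * w * (1 - w / W + w / W * (K / W)) ≤ (m0 α w).re := by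
  have hW : 0 < W := hw.trans_le hwW
  obtain ⟨h1, h2, -⟩ := DD.norm_lt hW hK h
  set v := 1 - α * W with hv
  set θ := w / W with hθ
  have t0 : 0 < θ := by positivity
  have t1 : θ ≤ 1 := (div_le_one hW).2 hwW
  have hWc : (W : ℂ) ≠ 0 := by exact_mod_cast hW.ne'
  have e : m0 α w = ((2 * w : ℝ) : ℂ) * (((1 - θ : ℝ) : ℂ) + (θ : ℂ) * v) := by
    simp only [m0, hv, hθ]
    push_cast
    field_simp
    ring
  have n1 : ‖m0 α w‖ = 2 * w * ‖((1 - θ : ℝ) : ℂ) + (θ : ℂ) * v‖ := by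
    rw [e, norm_mul, Complex.norm_real, Real.norm_of_nonneg (by positivity)]
  have hK' : 0 ≤ K / W := by positivity
  have hx := norm_nonneg v
  refine ⟨?_, ?_, ?_, ?_⟩
  · rw [n1, mw]
    gcongr
    refine (norm_add_le _ _).trans (le_of_eq ?_)
    rw [norm_mul, Complex.norm_real, Complex.norm_real, Real.norm_of_nonneg (by linarith),
      Real.norm_of_nonneg t0.le]
  · rw [n1, mw, mul_left_comm]
    gcongr
    rw [← sq_le_sq₀ (by nlinarith) (by positivity), mul_pow, Complex.sq_norm, Complex.normSq_apply]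
    have h3 : ‖v‖ ^ 2 = v.re * v.re + v.im * v.im := by rw [Complex.sq_norm, Complex.normSq_apply]
    simp only [add_re, ofReal_re, mul_re, ofReal_im, zero_mul, sub_zero, add_im, mul_im, add_zero,
      zero_add]
    have h4 : 0 ≤ (1 - θ) * θ * v.re := by
      have : 0 ≤ v.re := by linarith
      have : 0 ≤ 1 - θ := by linarith
      positivity
    have h5 : θ ^ 2 * ‖v‖ ^ 2 = (θ * v.re) ^ 2 + (θ * v.im) ^ 2 := by rw [h3]; ring
    nlinarith [sq_nonneg (1 - θ - θ * ‖v‖), sq_nonneg (1 - θ), sq_nonneg (θ * ‖v‖)]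
  · rw [mw]
    nlinarith [mul_le_mul_of_nonneg_left h1.le t0.le]
  · rw [e]
    simp only [re_ofReal_mul, add_re, ofReal_re]
    gcongr

theorem hasDerivAt_mw (α : ℂ) (W w : ℝ) :
    HasDerivAt (mw α W) (2 - 4 * (w / W) + 4 * (w / W) * ‖1 - α * W‖) w := by
  have h := (hasDerivAt_id w).div_const W
  refine (((hasDerivAt_id w).const_mul 2).mul ((h.const_sub 1).add
    (h.mul_const ‖1 - α * W‖))).congr_deriv ?_
  simp only [id, Pi.add_apply]
  ring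

variable {a W : ℝ} {α : ℂ} {V Y γ ρ : ℝ → ℂ} {ρ0 y0 : ℝ}

theorem Rad.W_gt (h : Rad a W α V Y γ ρ ρ0 y0) : 500000 < W := by
  have := (DD.norm_lt (h.pos.trans_le h.le) (by norm_num) h.dom).2.2
  linarith

theorem Rad.w_gt (h : Rad a W α V Y γ ρ ρ0 y0) {w : ℝ} (hw : w ∈ Icc a W) : 15000 < w := by
  linarith [h.W_gt, h.ge, hw.1]

theorem Rad.rho_nonneg (h : Rad a W α V Y γ ρ ρ0 y0) : 0 ≤ ρ0 :=
  (norm_nonneg _).trans (h.rho W ⟨h.le, le_rfl⟩)

theorem Rad.geo (h : Rad a W α V Y γ ρ ρ0 y0) {w : ℝ} (hw : w ∈ Icc a W) :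
    mw α W w ≤ 2 * ‖V w‖ ∧ ‖V w‖ ≤ 2 * mw α W w ∧ mw α W w ≤ 16 * w ∧
      800 + (W - w + 1) / 32 ≤ (V w).re := by
  have hw0 := h.w_gt hw
  have hW := h.W_gt
  obtain ⟨h1, h2, h3, h4⟩ := m0_facts (by norm_num) h.dom (by linarith) hw.2
  have h5 := h.near w hw
  have h6 := Complex.re_le_norm (m0 α w)
  have h7 := norm_sub_norm_le (m0 α w) (V w)
  have h8 := norm_sub_norm_le (V w) (m0 α w)
  rw [norm_sub_rev] at h7
  have h9 := (abs_le.1 (Complex.abs_re_le_norm (V w - m0 α w))).1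
  rw [sub_re] at h9
  refine ⟨by linarith, by linarith [norm_nonneg (m0 α w)], h3, ?_⟩
  have t0 : 1 / 32 ≤ w / W := by
    rw [div_le_div_iff₀ (by norm_num) (by linarith)]
    linarith [hw.1, h.ge]
  have e : 2 * w * (1 - w / W + w / W * (1000000 / W))
      = 2 * (w / W) * (W - w) + 2 * (w / W) ^ 2 * 1000000 := by
    field_simp
  have t1 : 2 * (1 / 32) * (W - w) ≤ 2 * (w / W) * (W - w) := by
    have : 0 ≤ W - w := by linarith [hw.2]
    gcongr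
  have t2 : (1 / 32 : ℝ) ^ 2 ≤ (w / W) ^ 2 := by gcongr
  rw [e] at h4
  linarith [hw.2]

/-- the pointwise data at one level -/
structure Pw (w t : ℝ) (V Y γ : ℂ) : Prop where
  w_gt : 15000 < w
  t_pos : 0 < t
  t_le : t ≤ 1 / 400
  inv_le : ‖V‖⁻¹ ≤ 2 * t
  le_inv : ‖V‖ * t ≤ 2
  nu_le : w⁻¹ ≤ 16 * t
  V_le : ‖V‖ ≤ 32 * w
  re : 800 < V.re
  y_le : ‖Y - 1‖ ≤ 1 / 400
  ga : γ ^ 2 = 1 - V / (4 * w ^ 2)
  ga_re : 0 ≤ γ.re

theorem Rad.pw (h : Rad a W α V Y γ ρ ρ0 y0) {w : ℝ} (hw : w ∈ Icc a W) :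
    Pw w (mw α W w)⁻¹ (V w) (Y w) (γ w) := by
  obtain ⟨h1, h2, h3, h4⟩ := h.geo hw
  have h5 := Complex.re_le_norm (V w)
  have h6 := hw.2
  have h7 := h.w_gt hw
  have h8 : 400 ≤ mw α W w := by linarith
  refine ⟨h7, by positivity, by rw [one_div]; exact inv_anti₀ (by norm_num) h8, ?_, ?_, ?_,
    by linarith, by linarith, h.small w hw, (h.ga w hw).1, (h.ga w hw).2⟩
  · rw [← div_eq_mul_inv, inv_eq_one_div, div_le_div_iff₀ (by linarith) (by linarith)]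
    linarith
  · rw [← div_eq_mul_inv, div_le_iff₀ (by linarith)]
    linarith
  · rw [← div_eq_mul_inv, inv_eq_one_div, div_le_div_iff₀ (by linarith) (by linarith)]
    linarith

namespace Pw

variable {w t : ℝ} {V Y γ : ℂ}

theorem om (h : Pw w t V Y γ) : (V, Y) ∈ Om := ⟨by linarith [h.re], by linarith [h.y_le]⟩

theorem nu_le' (h : Pw w t V Y γ) : w⁻¹ ≤ 1 / 15000 := by
  rw [one_div]
  exact inv_anti₀ (by norm_num) h.w_gt.le

theorem w_ne (h : Pw w t V Y γ) : (w : ℂ) ≠ 0 := by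
  have : w ≠ 0 := by linarith [h.w_gt]
  exact_mod_cast this

theorem Vw2 (h : Pw w t V Y γ) : ‖V / (4 * w ^ 2)‖ ≤ 8 * w⁻¹ := by
  have h0 := h.w_gt
  rw [norm_div, norm_mul, norm_pow, Complex.norm_real, Real.norm_of_nonneg (by linarith),
    Complex.norm_ofNat, div_le_iff₀ (by positivity)]
  calc ‖V‖ ≤ 32 * w := h.V_le
    _ = _ := by field_simp; norm_num

theorem one_le_ga (h : Pw w t V Y γ) : 1 ≤ ‖γ + 1‖ := by
  have := Complex.re_le_norm (γ + 1)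
  simp only [add_re, one_re] at this
  linarith [h.ga_re]

theorem ga_le (h : Pw w t V Y γ) : ‖γ - 1‖ ≤ 8 * w⁻¹ := by
  have e : (γ - 1) * (γ + 1) = -(V / (4 * w ^ 2)) := by linear_combination h.ga
  have h1 := congrArg norm e
  rw [norm_mul, norm_neg] at h1
  nlinarith [h.Vw2, h.one_le_ga, norm_nonneg (γ - 1)]

theorem s_le (h : Pw w t V Y γ) : ‖sg V Y - 1‖ ≤ ‖Y - 1‖ + 11 / 5 * t := by
  have := norm_sg_sub_one_le (V := V) (Y := Y) (by linarith [h.y_le])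
  rw [norm_inv] at this
  linarith [h.inv_le]

theorem den (h : Pw w t V Y γ) : 19 / 10 ≤ ‖sg V Y * (sg V Y + γ)‖ ∧
    19 / 10 ≤ ‖sg V Y * (1 + γ)‖ ∧ 99 / 100 ≤ ‖sg V Y‖ := by
  have h1 : ‖sg V Y - 1‖ ≤ 1 / 100 := by linarith [h.s_le, h.y_le, h.t_le]
  have h2 : ‖γ - 1‖ ≤ 1 / 100 := by linarith [h.ga_le, h.nu_le']
  have h3 := re_ge_of_norm_sub_one_le h1
  have h4 := re_ge_of_norm_sub_one_le h2
  have h5 := Complex.re_le_norm (sg V Y)
  have h6 := Complex.re_le_norm (sg V Y + γ)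
  have h7 := Complex.re_le_norm (1 + γ)
  simp only [add_re, one_re] at h6 h7
  rw [norm_mul, norm_mul]
  refine ⟨?_, ?_, by linarith⟩ <;> nlinarith

/-- the relaxation to the slow manifold -/
theorem exists_c (h : Pw w t V Y γ) : ∃ c : ℂ, ‖2 * c - 1‖ ≤ 1 / 4 ∧
    Y - γ * Y / sg V Y = c * ((Y - 1) - (Y ^ 2 / V - V / (4 * w ^ 2))) := by
  obtain ⟨d1, -, d3⟩ := h.den
  have h1 : ‖sg V Y - 1‖ ≤ 1 / 100 := by linarith [h.s_le, h.y_le, h.t_le]
  have h2 : ‖γ - 1‖ ≤ 1 / 100 := by linarith [h.ga_le, h.nu_le']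
  have hq := sg_sq V Y
  have hg := h.ga
  set s := sg V Y
  have n1 : s * (s + γ) ≠ 0 := norm_pos_iff.1 (by linarith)
  have n2 : s ≠ 0 := left_ne_zero_of_mul n1
  have n3 : s + γ ≠ 0 := right_ne_zero_of_mul n1
  refine ⟨Y / (s * (s + γ)), ?_, ?_⟩
  · have e : 2 * (Y / (s * (s + γ))) - 1 = (2 * (Y - 1) - (s - 1) * ((s - 1) + (γ - 1) + 3)
        - (γ - 1)) / (s * (s + γ)) := by
      field_simp
      ring
    rw [e, norm_div, div_le_iff₀ (by linarith)]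
    have a1 := norm_sub_le (2 * (Y - 1) - (s - 1) * ((s - 1) + (γ - 1) + 3)) (γ - 1)
    have a2 := norm_sub_le (2 * (Y - 1)) ((s - 1) * ((s - 1) + (γ - 1) + 3))
    have a3 := norm_add_le ((s - 1) + (γ - 1)) 3
    have a4 := norm_add_le (s - 1) (γ - 1)
    simp only [norm_mul, Complex.norm_ofNat] at a2 a3
    have a5 : ‖s - 1‖ * ‖(s - 1) + (γ - 1) + 3‖ ≤ 1 / 100 * 4 := by gcongr; linarith
    linarith [h.y_le]
  · have e : (Y - 1) - (Y ^ 2 / V - V / (4 * w ^ 2)) = (s - γ) * (s + γ) := by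
      linear_combination hg - hq
    rw [e]
    field_simp

theorem Y_le (h : Pw w t V Y γ) : ‖Y‖ ≤ 101 / 100 := by
  have := norm_add_le (Y - 1) 1
  simp only [sub_add_cancel, norm_one] at this
  linarith [h.y_le]

theorem e1_le (h : Pw w t V Y γ) : ‖Y ^ 2 / V - V / (4 * w ^ 2)‖ ≤ 135 * t := by
  have h1 : ‖Y ^ 2 / V‖ ≤ (101 / 100) ^ 2 * (2 * t) := by
    rw [div_eq_mul_inv, norm_mul, norm_pow, norm_inv]
    gcongr
    exacts [h.Y_le, h.inv_le]
  linarith [norm_sub_le (Y ^ 2 / V) (V / (4 * w ^ 2)), h.Vw2, h.nu_le, h.t_pos]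

theorem e2_le (h : Pw w t V Y γ) : ‖(Y ^ 2 - 1) / V‖ ≤ 5 * t * ‖Y - 1‖ := by
  have h1 := norm_add_le Y 1
  rw [norm_one] at h1
  rw [show (Y ^ 2 - 1) / V = (Y + 1) * V⁻¹ * (Y - 1) by ring, norm_mul, norm_mul, norm_inv]
  refine mul_le_mul_of_nonneg_right ?_ (norm_nonneg _)
  calc ‖Y + 1‖ * ‖V‖⁻¹ ≤ (5 / 2) * (2 * t) := by
        gcongr
        exacts [by linarith [h.Y_le], h.inv_le]
    _ = _ := by ring

theorem kappa_le (h : Pw w t V Y γ) : ‖γ * Y / sg V Y - 1‖ ≤ 2 * ‖Y - 1‖ + 135 * t := by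
  obtain ⟨c, hc, e⟩ := h.exists_c
  have h1 : ‖c‖ ≤ 1 := by
    have := norm_add_le (2 * c - 1) 1
    simp only [sub_add_cancel, norm_mul, Complex.norm_ofNat, norm_one] at this
    linarith
  rw [show γ * Y / sg V Y - 1 = (Y - 1) - (Y - γ * Y / sg V Y) by ring, e]
  refine (norm_sub_le _ _).trans ?_
  rw [norm_mul]
  have h2 := norm_sub_le (Y - 1) (Y ^ 2 / V - V / (4 * w ^ 2))
  nlinarith [mul_le_of_le_one_left (norm_nonneg ((Y - 1) - (Y ^ 2 / V - V / (4 * w ^ 2)))) h1,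
    h.e1_le]

end Pw

theorem Rad.dt (h : Rad a W α V Y γ ρ ρ0 y0) {w : ℝ} (hw : w ∈ Icc a W) :
    ∃ t', HasDerivAt (fun w => (mw α W w)⁻¹) t' w ∧ t' ≤ (mw α W w)⁻¹ / 10 := by
  have hp := h.pw hw
  have h0 : 0 < mw α W w := inv_pos.1 hp.t_pos
  refine ⟨_, (hasDerivAt_mw α W w).inv h0.ne', ?_⟩
  have t0 : 0 ≤ w / W := by have := h.W_gt; have := hp.w_gt; positivity
  have t1 : w / W ≤ 1 := (div_le_one (by linarith [h.W_gt])).2 hw.2
  have t2 : 0 ≤ 4 * (w / W) * ‖1 - α * W‖ := by positivity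
  rw [div_eq_mul_inv, ← inv_pow]
  nlinarith [hp.t_le, hp.t_pos, mul_pos hp.t_pos hp.t_pos]

theorem hasDerivAt_ex (W w : ℝ) :
    HasDerivAt (fun w => Real.exp ((w - W) / 2)) (Real.exp ((w - W) / 2) / 2) w := by
  simpa [div_eq_mul_inv] using (((hasDerivAt_id w).sub_const W).div_const 2).exp

/-- the bound for `Y - 1` -/
theorem Rad.y_le (h : Rad a W α V Y γ ρ ρ0 y0) {w : ℝ} (hw : w ∈ Icc a W) :
    ‖Y w - 1‖ ≤ 1000 * (mw α W w)⁻¹ + 2 * ρ0 + y0 * Real.exp ((w - W) / 2) := by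
  choose! t' ht' ht'' using fun w hw => h.dt (w := w) hw
  refine bwd_le (y := fun w => Y w - 1) (F := fun w => 270 * (mw α W w)⁻¹ + ρ0)
    (ψ := fun w => 1000 * (mw α W w)⁻¹ + 2 * ρ0 + y0 * Real.exp ((w - W) / 2))
    (fun w hw => (h.dY w hw).sub_const 1) (fun w hw => ?_)
    (fun w hw => ((((ht' w hw).const_mul 1000).add_const (2 * ρ0)).add
      ((hasDerivAt_ex W w).const_mul y0)).hasDerivWithinAt) (fun w hw => ?_) ?_ w hw
  · have hp := h.pw hw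
    obtain ⟨c, hc, e⟩ := hp.exists_c
    have h1 : ‖2 * c‖ ≤ 2 := by
      have := norm_add_le (2 * c - 1) 1
      simp only [sub_add_cancel, norm_one] at this
      linarith
    rw [show 2 * Y w - 2 * γ w * Y w / sg (V w) (Y w) + ρ w - (Y w - 1) = (2 * c - 1) * (Y w - 1)
      - 2 * c * (Y w ^ 2 / V w - V w / (4 * w ^ 2)) + ρ w by linear_combination 2 * e]
    refine (norm_add_le _ _).trans ?_
    have h2 := norm_sub_le ((2 * c - 1) * (Y w - 1)) (2 * c * (Y w ^ 2 / V w - V w / (4 * w ^ 2)))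
    rw [norm_mul, norm_mul] at h2
    have h3 := mul_le_mul h1 hp.e1_le (norm_nonneg _) (by norm_num)
    have h4 := mul_le_mul_of_nonneg_right hc (norm_nonneg (Y w - 1))
    linarith [h.rho w hw]
  · have h1 := mul_nonneg h.y0_nonneg (Real.exp_pos ((w - W) / 2)).le
    linarith [ht'' w hw, (h.pw hw).t_pos, h.rho_nonneg]
  · have := (h.pw ⟨h.le, le_rfl⟩).inv_le
    have := (h.pw ⟨h.le, le_rfl⟩).t_pos
    simp only [sub_self, zero_div, Real.exp_zero]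
    linarith [h.term, h.rho_nonneg]

/-- the distance to the slow manifold -/
theorem Rad.delta_le (h : Rad a W α V Y γ ρ ρ0 y0) {w : ℝ} (hw : w ∈ Icc a W) :
    ‖Y w - 1 - ((V w)⁻¹ - V w / (4 * w ^ 2))‖ ≤ 100000 * (mw α W w)⁻¹ ^ 2 + 4 * ρ0
      + (1200 * (mw α W w)⁻¹ + y0) * Real.exp ((w - W) / 2) := by
  choose! t' ht' ht'' using fun w hw => h.dt (w := w) hw
  set V' : ℝ → ℂ := fun w => 2 * V w / w - 2 * γ w * Y w / sg (V w) (Y w) with hV'
  refine bwd_le (y := fun w => Y w - 1 - ((V w)⁻¹ - V w / (4 * w ^ 2)))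
    (y' := fun w => 2 * Y w - 2 * γ w * Y w / sg (V w) (Y w) + ρ w
      - (-V' w / V w ^ 2 - V' w / (4 * w ^ 2) + V w / (2 * w ^ 3)))
    (F := fun w => 21000 * (mw α W w)⁻¹ ^ 2 + 2 * ρ0 + y0 * Real.exp ((w - W) / 2) / 10)
    (ψ := fun w => 100000 * (mw α W w)⁻¹ ^ 2 + 4 * ρ0
      + (1200 * (mw α W w)⁻¹ + y0) * Real.exp ((w - W) / 2))
    (fun w hw => ?_) (fun w hw => ?_)
    (fun w hw => (((((ht' w hw).pow 2).const_mul 100000).add_const (4 * ρ0)).add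
      ((((ht' w hw).const_mul 1200).add_const y0).mul (hasDerivAt_ex W w))).hasDerivWithinAt)
    (fun w hw => ?_) ?_ w hw
  · have hp := h.pw hw
    have h1 : HasDerivAt (fun w : ℝ => 4 * (w : ℂ) ^ 2) (4 * (2 * (w : ℂ))) w := by
      simpa using (((hasDerivAt_id (w : ℂ)).pow 2).const_mul 4).comp_ofReal
    have h2 := hp.w_ne
    refine (((h.dY w hw).sub_const 1).sub (((h.dV w hw).inv (Om.v_ne hp.om)).sub
      ((h.dV w hw).div h1.hasDerivWithinAt (by simpa using h2)))).congr_deriv ?_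
    simp only [hV']
    field_simp
    ring
  · have hp := h.pw hw
    have hy := h.y_le hw
    obtain ⟨c, hc, e⟩ := hp.exists_c
    have h1 : ‖2 * c‖ ≤ 2 := by
      have := norm_add_le (2 * c - 1) 1
      simp only [sub_add_cancel, norm_one] at this
      linarith
    have hw0 := hp.w_gt
    have ht := hp.t_pos
    have ht1 := hp.t_le
    have hn := hp.nu_le
    set t := (mw α W w)⁻¹
    have nw : ‖(w : ℂ)‖ = w := by rw [Complex.norm_real, Real.norm_of_nonneg (by linarith)]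
    have v1 : ‖V w‖ * w⁻¹ ≤ 32 := by
      rw [← div_eq_mul_inv, div_le_iff₀ (by linarith)]
      exact hp.V_le
    have v2 : ‖V' w‖ ≤ 70 := by
      have a1 := hp.kappa_le
      have a2 := norm_sub_le (2 * V w / w - 2) (2 * (γ w * Y w / sg (V w) (Y w) - 1))
      have a3 := norm_sub_le (2 * V w / w) 2
      rw [show 2 * V w / w - 2 - 2 * (γ w * Y w / sg (V w) (Y w) - 1) = V' w by
        simp only [hV']; ring] at a2
      simp only [div_eq_mul_inv, norm_mul, norm_inv, Complex.norm_ofNat, nw] at a1 a2 a3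
      linarith [hp.y_le]
    have k1 : ‖-V' w / V w ^ 2‖ ≤ 70 * (2 * t) ^ 2 := by
      rw [div_eq_mul_inv, norm_mul, norm_neg, norm_inv, norm_pow, ← inv_pow]
      gcongr
      exact hp.inv_le
    have k2 : ‖V' w / (4 * w ^ 2)‖ ≤ 70 * (4⁻¹ * (16 * t) ^ 2) := by
      rw [div_eq_mul_inv, mul_inv, norm_mul, norm_mul, norm_inv, norm_inv, norm_pow, nw,
        Complex.norm_ofNat, ← inv_pow]
      gcongr
    have k3 : ‖V w / (2 * w ^ 3)‖ ≤ 32 * (2⁻¹ * (16 * t) ^ 2) := by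
      have : ‖V w / (2 * w ^ 3)‖ = ‖V w‖ * w⁻¹ * (2⁻¹ * w⁻¹ ^ 2) := by
        rw [norm_div, norm_mul, norm_pow, nw, Complex.norm_ofNat]
        field_simp
      rw [this]
      gcongr
    set δ := Y w - 1 - ((V w)⁻¹ - V w / (4 * w ^ 2)) with hδ
    set k := -V' w / V w ^ 2 - V' w / (4 * w ^ 2) + V w / (2 * w ^ 3) with hk
    have k4 : ‖k‖ ≤ 9000 * t ^ 2 := by
      have a1 := norm_add_le (-V' w / V w ^ 2 - V' w / (4 * w ^ 2)) (V w / (2 * w ^ 3))
      have a2 := norm_sub_le (-V' w / V w ^ 2) (V' w / (4 * w ^ 2))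
      nlinarith
    rw [show 2 * Y w - 2 * γ w * Y w / sg (V w) (Y w) + ρ w - k - δ = (2 * c - 1) * δ
      - 2 * c * ((Y w ^ 2 - 1) / V w) + ρ w - k by rw [hδ]; linear_combination 2 * e]
    have a1 := norm_sub_le ((2 * c - 1) * δ - 2 * c * ((Y w ^ 2 - 1) / V w) + ρ w) k
    have a2 := norm_add_le ((2 * c - 1) * δ - 2 * c * ((Y w ^ 2 - 1) / V w)) (ρ w)
    have a3 := norm_sub_le ((2 * c - 1) * δ) (2 * c * ((Y w ^ 2 - 1) / V w))
    rw [norm_mul, norm_mul] at a3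
    have h3 := mul_le_mul h1 hp.e2_le (norm_nonneg _) (by norm_num)
    have h4 := mul_le_mul_of_nonneg_right hc (norm_nonneg δ)
    have h5 := mul_le_mul_of_nonneg_left hy ht.le
    have h6 := mul_nonneg h.y0_nonneg (Real.exp_pos ((w - W) / 2)).le
    have h7 := mul_le_mul_of_nonneg_right ht1 h6
    have h8 := mul_le_mul_of_nonneg_right ht1 h.rho_nonneg
    nlinarith [h.rho w hw, h.rho_nonneg]
  · have h0 := Real.exp_pos ((w - W) / 2)
    have h1 := mul_nonneg h.y0_nonneg h0.le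
    have ht := (h.pw hw).t_pos
    have h2 := mul_le_mul_of_nonneg_left (ht'' w hw) ht.le
    have h3 := mul_le_mul_of_nonneg_right (ht'' w hw) h0.le
    simp only [Nat.cast_ofNat, Nat.add_one_sub_one, pow_one]
    nlinarith [h.rho_nonneg, mul_pos ht ht, mul_pos ht h0]
  · have hp := h.pw ⟨h.le, le_rfl⟩
    have hy := h.y_le ⟨h.le, le_rfl⟩
    have a1 := norm_sub_le (Y W - 1) ((V W)⁻¹ - V W / (4 * W ^ 2))
    have a2 := norm_sub_le (V W)⁻¹ (V W / (4 * W ^ 2))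
    rw [norm_inv] at a2
    simp only [sub_self, zero_div, Real.exp_zero] at hy ⊢
    nlinarith [hp.Vw2, hp.inv_le, hp.nu_le, hp.t_pos, h.rho_nonneg]

end Vale.Agent.P218TP
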