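import Vale.Agent.P218TP.Rad1

/-! # Transport of the tip function -/

open Set Metric Filter Topology Complex

namespace Vale.Agent.P218TP

open P218IN

theorem log_le_lin {x c : ℝ} (hx : 0 < x) (hc : 0 < c) : Real.log x ≤ x / c + Real.log c - 1 := by
  have h1 := Real.log_le_sub_one_of_pos (show 0 < x / c by positivity)
  rw [Real.log_div hx.ne' hc.ne'] at h1
  linarith

theorem log_ten_thousand : Real.log 10000 ≤ 12 := by
  have h1 : Real.log 10000 = 4 * Real.log 10 := by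
    rw [show (10000 : ℝ) = 10 ^ 4 by norm_num, Real.log_pow]
    norm_num
  have h2 : Real.log 10 ≤ 3 := by
    rw [Real.log_le_iff_le_exp (by norm_num)]
    have h3 := Real.add_one_le_exp (1 / 2)
    have h4 : Real.exp 3 = Real.exp (1 / 2) ^ 6 := by rw [← Real.exp_nat_mul]; norm_num
    rw [h4]
    calc (10 : ℝ) ≤ (1 / 2 + 1) ^ 6 := by norm_num
      _ ≤ _ := by gcongr
  linarith

theorem norm_ell_le {w : ℝ} {V Y : ℂ} (hw : 1 ≤ w) (h : (V, Y) ∈ Om) :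
    ‖ell w V Y‖ ≤ Real.log w + Real.log ‖V‖ / 2 + 3 := by
  have h0 : 400 < ‖V‖ := norm_gt_of_re h.1
  have h1 := norm_Hh_sub_le h
  have h2 := norm_log_le (V := V) (by linarith)
  have h3 : ‖V‖⁻¹ ≤ 400⁻¹ := inv_anti₀ (by norm_num) h0.le
  have h4 := h.2
  simp only at h1 h4
  rw [show ell w V Y = (Hh (V, Y) - (V / 2 - Complex.log V / 2)) + (Real.log w - Complex.log V / 2)
    by rw [ell]; ring]
  refine (norm_add_le _ _).trans ?_
  have h5 := norm_sub_le (Real.log w : ℂ) (Complex.log V / 2)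
  rw [Complex.norm_real, Real.norm_of_nonneg (Real.log_nonneg hw), norm_div,
    Complex.norm_ofNat] at h5
  linarith

namespace Pw

variable {w t : ℝ} {V Y γ : ℂ}

theorem nw (h : Pw w t V Y γ) : ‖(w : ℂ)‖ = w := by
  rw [Complex.norm_real, Real.norm_of_nonneg (by linarith [h.w_gt])]

theorem Vnu (h : Pw w t V Y γ) : ‖V‖ * w⁻¹ ≤ 32 := by
  rw [← div_eq_mul_inv, div_le_iff₀ (by linarith [h.w_gt])]
  exact h.V_le

theorem al_le (h : Pw w t V Y γ) : ‖alL w V‖ ≤ 17 * w⁻¹ := by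
  have h0 := h.w_gt
  have h1 := norm_sub_le (2 * (w : ℂ)) V
  rw [norm_mul, h.nw, Complex.norm_ofNat] at h1
  rw [alL, norm_div, norm_mul, norm_pow, h.nw, Complex.norm_ofNat, div_le_iff₀ (by positivity)]
  calc _ ≤ 34 * w := by linarith [h.V_le]
    _ = _ := by field_simp; norm_num

theorem Xi_sub (h : Pw w t V Y γ) : ‖Xi w V Y - 1‖ ≤ 1 / 4 := by
  have h0 := h.w_gt
  have h1 := norm_ell_le (w := w) (by linarith) h.om
  have h2 := log_le_lin (x := w) (c := 10000) (by linarith) (by norm_num)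
  have h3 := log_le_lin (x := ‖V‖) (c := 10000) (by linarith [norm_gt_of_re h.om.1]) (by norm_num)
  have h4 : ‖ell w V Y‖ ≤ w / 100 := by linarith [log_ten_thousand, h.V_le]
  have h5 : ‖alL w V * ell w V Y‖ ≤ 17 * w⁻¹ * (w / 100) := by
    rw [norm_mul]
    gcongr
    exact h.al_le
  have h6 : 17 * w⁻¹ * (w / 100) = 17 / 100 := by field_simp
  rw [show Xi w V Y - 1 = alL w V * ell w V Y - (w : ℂ)⁻¹ by rw [Xi]; ring]
  refine (norm_sub_le _ _).trans ?_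
  rw [norm_inv, h.nw]
  linarith [h.nu_le']

theorem Xi_ge (h : Pw w t V Y γ) : 3 / 4 ≤ ‖Xi w V Y‖ := by
  linarith [re_ge_of_norm_sub_one_le h.Xi_sub, Complex.re_le_norm (Xi w V Y)]

theorem gT_le (h : Pw w t V Y γ) : ‖gT w V Y‖ ≤ 23 * w⁻¹ := by
  rw [gT, norm_div, div_le_iff₀ (by linarith [h.Xi_ge])]
  have : 0 < w⁻¹ := by have := h.w_gt; positivity
  nlinarith [h.al_le, h.Xi_ge]

end Pw

/-- the error term in the derivative of `ell` -/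
noncomputable def TT (w : ℝ) (V Y γ ρ : ℂ) : ℂ :=
  2 * V * fderiv ℂ EE (V, Y) (1, 0) / w
    + (fderiv ℂ Hh (V, Y) (1, 0) + fderiv ℂ Hh (V, Y) (0, 1)) * (2 * (1 - γ) * Y / sg V Y)
    + fderiv ℂ Hh (V, Y) (0, 1) * ρ

/-- the numerator of the derivative of the tip function -/
noncomputable def Num (w : ℝ) (V Y γ ρ : ℂ) : ℂ :=
  (γ * Y / sg V Y - 1 - (V⁻¹ - V / (4 * w ^ 2))) * (V * (1 + alL w V * w) / (2 * w ^ 3))
    - (γ * Y / sg V Y - 1) / w ^ 3 - alL w V ^ 2 * (TT w V Y γ ρ - V / (4 * w ^ 2))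

variable {a W : ℝ} {α : ℂ} {V Y γ ρ : ℝ → ℂ} {ρ0 y0 : ℝ}

theorem Rad.d_alL (h : Rad a W α V Y γ ρ ρ0 y0) {w : ℝ} (hw : w ∈ Icc a W) :
    HasDerivWithinAt (fun w => alL w (V w)) ((γ w * Y w / sg (V w) (Y w) - 1) / w ^ 2)
      (Icc a W) w := by
  have hp := h.pw hw
  have h1 : HasDerivAt (fun w : ℝ => 2 * (w : ℂ) ^ 2) (2 * (2 * (w : ℂ))) w := by
    simpa using (((hasDerivAt_id (w : ℂ)).pow 2).const_mul 2).comp_ofReal
  have h2 : HasDerivAt (fun w : ℝ => 2 * (w : ℂ)) 2 w := by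
    simpa using ((hasDerivAt_id (w : ℂ)).const_mul 2).comp_ofReal
  have h3 := hp.w_ne
  refine ((h2.hasDerivWithinAt.sub (h.dV w hw)).div h1.hasDerivWithinAt
    (by simpa using h3)).congr_deriv ?_
  simp only [Pi.sub_apply]
  field_simp
  ring

theorem Rad.d_ell (h : Rad a W α V Y γ ρ ρ0 y0) {w : ℝ} (hw : w ∈ Icc a W) :
    HasDerivWithinAt (fun w => ell w (V w) (Y w))
      (γ w * Y w / sg (V w) (Y w) - 1 + TT w (V w) (Y w) (γ w) (ρ w)) (Icc a W) w := by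
  have hp := h.pw hw
  have h1 : HasDerivAt (fun w : ℝ => (Real.log w : ℂ)) ((w⁻¹ : ℝ) : ℂ) w :=
    (Real.hasDerivAt_log (by linarith [hp.w_gt])).ofReal_comp
  have h2 := ((Om.d_Hh hp.om).hasFDerivAt.restrictScalars ℝ).comp_hasDerivWithinAt w
    (f := fun w => (V w, Y w)) ((h.dV w hw).prodMk (h.dY w hw))
  refine ((h1.hasDerivWithinAt.sub ((h.dV w hw).div_const 2)).add h2).congr_deriv ?_
  have h3 := fderiv_Hh_flow hp.om
  have h4 := fderiv_Hh hp.om 1 0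
  rw [clm_apply_eq] at h3
  simp only [ContinuousLinearMap.coe_restrictScalars']
  rw [clm_apply_eq]
  simp only [TT, G] at h3 h4 ⊢
  have hY : Y w ≠ 0 := Om.y_ne hp.om
  have hV : V w ≠ 0 := Om.v_ne hp.om
  have hs : sg (V w) (Y w) ≠ 0 := Om.s_ne hp.om
  have hw0 := hp.w_ne
  have e1 : 2 * Y w / sg (V w) (Y w) * (sg (V w) (Y w) / (2 * Y w)) = 1 := by field_simp
  have e2 : 2 * Y w / sg (V w) (Y w) * sg (V w) (Y w) = 2 * Y w := by field_simp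
  have e3 : 2 * V w / w * (1 / (2 * V w)) = (w : ℂ)⁻¹ := by field_simp
  push_cast
  linear_combination (-(2 * Y w / sg (V w) (Y w))) * h3 - e1 + (2 * V w / w) * h4 - e3
    - fderiv ℂ Hh (V w, Y w) (0, 1) * e2

theorem Rad.d_gT (h : Rad a W α V Y γ ρ ρ0 y0) {w : ℝ} (hw : w ∈ Icc a W) :
    HasDerivWithinAt (fun w => gT w (V w) (Y w))
      (Num w (V w) (Y w) (γ w) (ρ w) / Xi w (V w) (Y w) ^ 2) (Icc a W) w := by
  have hp := h.pw hw
  have hw0 := hp.w_ne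
  have h1 : HasDerivAt (fun w : ℝ => 1 - 1 / (w : ℂ)) (1 / (w : ℂ) ^ 2) w := by
    simpa using (((hasDerivAt_inv hw0).const_sub 1).comp_ofReal)
  have hX : Xi w (V w) (Y w) ≠ 0 := norm_pos_iff.1 (by linarith [hp.Xi_ge])
  refine ((h.d_alL hw).div (h1.hasDerivWithinAt.add ((h.d_alL hw).mul (h.d_ell hw)))
    hX).congr_deriv ?_
  congr 1
  have hV : V w ≠ 0 := Om.v_ne hp.om
  simp only [Num, Pi.add_apply, Pi.mul_apply]
  generalize γ w * Y w / sg (V w) (Y w) = k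
  simp only [alL]
  field_simp
  ring

namespace Pw

variable {w t : ℝ} {V Y γ : ℂ}

theorem kk_le (h : Pw w t V Y γ) : ‖γ * Y / sg V Y - 1 - (V⁻¹ - V / (4 * w ^ 2))‖
    ≤ ‖Y - 1 - (V⁻¹ - V / (4 * w ^ 2))‖ + 5 * t * ‖Y - 1‖ := by
  obtain ⟨c, hc, e⟩ := h.exists_c
  have h1 : ‖c‖ ≤ 1 := by
    have := norm_add_le (2 * c - 1) 1
    simp only [sub_add_cancel, norm_mul, Complex.norm_ofNat, norm_one] at this
    linarith
  have h2 : ‖1 - c‖ ≤ 1 := by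
    have := norm_sub_le 1 (2 * c - 1)
    rw [show 1 - (2 * c - 1) = 2 * (1 - c) by ring, norm_mul, Complex.norm_ofNat, norm_one] at this
    linarith
  rw [show γ * Y / sg V Y - 1 - (V⁻¹ - V / (4 * w ^ 2))
    = (1 - c) * (Y - 1 - (V⁻¹ - V / (4 * w ^ 2))) + c * ((Y ^ 2 - 1) / V) by linear_combination -e]
  refine (norm_add_le _ _).trans ?_
  rw [norm_mul, norm_mul]
  exact add_le_add (mul_le_of_le_one_left (norm_nonneg _) h2)
    ((mul_le_of_le_one_left (norm_nonneg _) h1).trans h.e2_le)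

theorem TT_le (h : Pw w t V Y γ) (ρ : ℂ) : ‖TT w V Y γ ρ - V / (4 * w ^ 2)‖
    ≤ 2 * (‖V‖ * w⁻¹) * ‖fderiv ℂ EE (V, Y) (1, 0)‖ + ‖V‖ * w⁻¹ ^ 2 * (‖Y - 1‖ + 2 * t + 2 * w⁻¹
      + ‖fderiv ℂ EE (V, Y) (1, 0)‖ + ‖fderiv ℂ EE (V, Y) (0, 1)‖) + 51 * ‖ρ‖ := by
  obtain ⟨-, d2, -⟩ := h.den
  have h1 := fderiv_Hh h.om 1 0
  have h2 := fderiv_Hh h.om 0 1
  have hY : Y ≠ 0 := Om.y_ne h.om
  have hV : V ≠ 0 := Om.v_ne h.om
  have hw0 := h.w_ne
  have n1 : sg V Y * (1 + γ) ≠ 0 := norm_pos_iff.1 (by linarith)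
  have n2 := left_ne_zero_of_mul n1
  have n3 := right_ne_zero_of_mul n1
  have hE := norm_fderiv_EE_snd h.om h.y_le
  set EV := fderiv ℂ EE (V, Y) (1, 0) with hEV
  set EY := fderiv ℂ EE (V, Y) (0, 1)
  set s := sg V Y with hs
  simp only at h1 h2 hE
  have e1 : 1 - γ = V / (4 * w ^ 2) / (1 + γ) := by
    rw [eq_div_iff n3]
    linear_combination -h.ga
  have e2 : TT w V Y γ ρ - V / (4 * w ^ 2) = 2 * (V * (w : ℂ)⁻¹) * EV + V * (w : ℂ)⁻¹ ^ 2 *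
      (((Y - 1) - Y * V⁻¹ + 2 * Y * (EV + EY) - 2 * (s - 1) - s * (γ - 1)) / (4 * (s * (1 + γ))))
      + (1 / (2 * Y) + EY) * ρ := by
    rw [TT, h1, h2, e1, ← hs, ← hEV]
    field_simp
    ring
  have a1 : ‖((Y - 1) - Y * V⁻¹ + 2 * Y * (EV + EY) - 2 * (s - 1) - s * (γ - 1))
      / (4 * (s * (1 + γ)))‖ ≤ ‖Y - 1‖ + 2 * t + 2 * w⁻¹ + ‖EV‖ + ‖EY‖ := by
    rw [norm_div, norm_mul, Complex.norm_ofNat, div_le_iff₀ (by linarith)]
    have b1 := norm_sub_le ((Y - 1) - Y * V⁻¹ + 2 * Y * (EV + EY) - 2 * (s - 1)) (s * (γ - 1))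
    have b2 := norm_sub_le ((Y - 1) - Y * V⁻¹ + 2 * Y * (EV + EY)) (2 * (s - 1))
    have b3 := norm_add_le ((Y - 1) - Y * V⁻¹) (2 * Y * (EV + EY))
    have b4 := norm_sub_le (Y - 1) (Y * V⁻¹)
    have b5 := norm_add_le EV EY
    have b6 := norm_add_le (s - 1) 1
    simp only [norm_mul, Complex.norm_ofNat, norm_inv, sub_add_cancel, norm_one] at b1 b2 b3 b4 b6
    have c1 : ‖Y‖ * ‖V‖⁻¹ ≤ 101 / 100 * (2 * t) := by
      gcongr
      exacts [h.Y_le, h.inv_le]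
    have c2 : 2 * ‖Y‖ * ‖EV + EY‖ ≤ 2 * (101 / 100) * (‖EV‖ + ‖EY‖) := by
      gcongr
      exact h.Y_le
    have c3 : ‖s‖ * ‖γ - 1‖ ≤ 101 / 100 * (8 * w⁻¹) := by
      gcongr
      exacts [by linarith [h.s_le, h.y_le, h.t_le], h.ga_le]
    have c4 : 0 < w⁻¹ := by have := h.w_gt; positivity
    have c5 := h.s_le
    have c6 := h.t_pos
    calc _ ≤ (‖Y - 1‖ + 2 * t + 2 * w⁻¹ + ‖EV‖ + ‖EY‖) * (4 * (19 / 10)) := by
          linarith [norm_nonneg (Y - 1), norm_nonneg EV, norm_nonneg EY]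
      _ ≤ _ := by gcongr
  have a2 : ‖1 / (2 * Y) + EY‖ ≤ 51 := by
    have b1 : ‖1 / (2 * Y)‖ ≤ 3 / 5 := by
      rw [norm_div, norm_mul, norm_one, Complex.norm_ofNat, div_le_iff₀ (by positivity)]
      linarith [re_ge_of_norm_sub_one_le h.y_le, Complex.re_le_norm Y]
    have b2 : ‖V‖⁻¹ ≤ 800⁻¹ := inv_anti₀ (by norm_num) (h.re.le.trans (Complex.re_le_norm V))
    linarith [norm_add_le (1 / (2 * Y)) EY]
  rw [e2]
  refine (norm_add_le _ _).trans (add_le_add ((norm_add_le _ _).trans (add_le_add ?_ ?_)) ?_)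
  · simp only [norm_mul, norm_inv, h.nw, Complex.norm_ofNat, le_refl]
  · rw [norm_mul, norm_mul, norm_pow, norm_inv, h.nw]
    gcongr
  · rw [norm_mul]
    gcongr

theorem Num_le (h : Pw w t V Y γ) (ρ : ℂ) : ‖Num w V Y γ ρ‖ ≤ w⁻¹ ^ 2 *
    (9 * (‖V‖ * w⁻¹) * (‖Y - 1 - (V⁻¹ - V / (4 * w ^ 2))‖ + 5 * t * ‖Y - 1‖)
      + w⁻¹ * (2 * ‖Y - 1‖ + 135 * t) + 289 * ‖TT w V Y γ ρ - V / (4 * w ^ 2)‖) := by
  have h0 := h.w_gt
  have h1 : ‖1 + alL w V * w‖ ≤ 18 := by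
    refine (norm_add_le _ _).trans ?_
    rw [norm_one, norm_mul, h.nw]
    have := mul_le_mul_of_nonneg_right h.al_le (show 0 ≤ w by linarith)
    rw [mul_assoc, inv_mul_cancel₀ (by linarith)] at this
    linarith
  have h2 : ‖V * (1 + alL w V * w) / (2 * w ^ 3)‖ ≤ w⁻¹ ^ 2 * (9 * (‖V‖ * w⁻¹)) := by
    rw [norm_div, norm_mul, norm_mul, norm_pow, h.nw, Complex.norm_ofNat,
      div_le_iff₀ (by positivity)]
    calc ‖V‖ * ‖1 + alL w V * w‖ ≤ ‖V‖ * 18 := by gcongr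
      _ = _ := by field_simp; ring
  have h3 : ‖(γ * Y / sg V Y - 1) / w ^ 3‖ ≤ w⁻¹ ^ 2 * (w⁻¹ * (2 * ‖Y - 1‖ + 135 * t)) := by
    rw [norm_div, norm_pow, h.nw, div_le_iff₀ (by positivity)]
    refine h.kappa_le.trans (le_of_eq ?_)
    field_simp
  have h4 : ‖alL w V ^ 2‖ ≤ (17 * w⁻¹) ^ 2 := by
    rw [norm_pow]
    gcongr
    exact h.al_le
  have h5 := mul_le_mul h.kk_le h2 (norm_nonneg _) (by have := h.t_pos; positivity)
  have h6 := mul_le_mul_of_nonneg_right h4 (norm_nonneg (TT w V Y γ ρ - V / (4 * w ^ 2)))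
  rw [Num]
  refine (norm_sub_le _ _).trans ((add_le_add (norm_sub_le _ _) le_rfl).trans ?_)
  rw [norm_mul, norm_mul]
  linarith

end Pw

end Vale.Agent.P218TP
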