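import Vale.Agent.P218TP.Defs

/-! # Quadratic bound for the isochron correction; backward comparison -/

open Set Metric Filter Topology Complex MeasureTheory

namespace Vale.Agent.P218TP

open P218IN

theorem norm_hh_le2 {p : ℂ × ℂ} (hp : p ∈ Om) {τ : ℝ} (hτ : 0 ≤ τ) :
    ‖hh (p.1 + τ) (flow p τ)‖
      ≤ 2 * ‖p.2 - 1‖ ^ 2 * Real.exp (-(2 / 5) * τ) + 76 * ((‖p.1‖ + τ) ^ 2)⁻¹ := by
  have h1 := norm_flow_le' hp hτ
  have h2 := norm_flow_le hp hτ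
  have h3 := norm_G_le (V := p.1 + τ) (Y := flow p τ) (by linarith)
  have h4 := norm_inv_add_le hp.1 hτ
  have hA := norm_gt_of_re hp.1
  have h5 : 0 < (‖p.1‖ + τ)⁻¹ := by positivity
  have h7 : 49 / 50 ≤ ‖flow p τ‖ := by
    linarith [re_ge_of_norm_sub_one_le h2, Complex.re_le_norm (flow p τ)]
  have h8 : Real.exp (-(2 / 5) * τ) ≤ 1 := Real.exp_le_one_iff.2 (by linarith)
  have h9 := Real.exp_pos (-(2 / 5) * τ)
  have ha0 := norm_nonneg (p.2 - 1)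
  rw [← inv_pow]
  set ρ := (‖p.1‖ + τ)⁻¹
  set u := ‖p.2 - 1‖ * Real.exp (-(2 / 5) * τ) with hu
  have hu0 : 0 ≤ u := by positivity
  have e1 : ‖(flow p τ - 1) / (2 * (p.1 + τ))‖ ≤ (u + 6 * ρ) * ρ := by
    rw [div_eq_mul_inv, mul_inv, norm_mul, norm_mul]
    have : ‖(2 : ℂ)⁻¹‖ = 1 / 2 := by simp
    rw [this]
    exact mul_le_mul h1 (by linarith) (by positivity) (by positivity)
  have e2 : ‖G (p.1 + τ) (flow p τ) ^ 2 / (2 * flow p τ)‖ ≤ (u + 41 / 5 * ρ) ^ 2 * (25 / 49) := by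
    rw [norm_div, norm_mul, norm_pow, Complex.norm_ofNat, div_le_iff₀ (by linarith)]
    calc ‖G (p.1 + τ) (flow p τ)‖ ^ 2 ≤ (u + 41 / 5 * ρ) ^ 2 := by gcongr; linarith
      _ = (u + 41 / 5 * ρ) ^ 2 * (25 / 49) * (2 * (49 / 50)) := by ring
      _ ≤ _ := by gcongr
  refine (norm_add_le _ _).trans ?_
  have e3 : u ^ 2 ≤ ‖p.2 - 1‖ ^ 2 * Real.exp (-(2 / 5) * τ) := by
    rw [hu, mul_pow]
    gcongr
    nlinarith
  nlinarith [sq_nonneg (u - 41 / 5 * ρ), sq_nonneg (u - ρ)]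

theorem norm_EE_le2 {p : ℂ × ℂ} (hp : p ∈ Om) : ‖EE p‖ ≤ 5 * ‖p.2 - 1‖ ^ 2 + 76 * ‖p.1‖⁻¹ := by
  have hA := norm_gt_of_re hp.1
  obtain ⟨i1, i2⟩ := integral_inv_sq (A := ‖p.1‖) (by linarith)
  have i3 := integrableOn_exp_mul_Ioi (a := -(2 / 5)) (by norm_num) 0
  rw [EE_eq hp]
  refine (norm_integral_le_of_norm_le ((i3.const_mul (2 * ‖p.2 - 1‖ ^ 2)).add (i1.const_mul 76))
    ((ae_restrict_iff' measurableSet_Ioi).2 (Eventually.of_forall fun τ hτ =>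
      norm_hh_le2 hp (le_of_lt hτ)))).trans (le_of_eq ?_)
  rw [integral_add' (i3.const_mul _) (i1.const_mul _), integral_const_mul, integral_const_mul, i2,
    integral_exp_mul_Ioi (by norm_num)]
  simp only [mul_zero, Real.exp_zero]
  ring

theorem norm_fderiv_EE_snd2 {p : ℂ × ℂ} (hp : p ∈ Om) (h : ‖p.2 - 1‖ ≤ 1 / 400) {r : ℝ}
    (hr : 0 < r) (hr' : r ≤ 1 / 500) :
    ‖fderiv ℂ EE p (0, 1)‖ ≤ (10 * ‖p.2 - 1‖ ^ 2 + 10 * r ^ 2 + 76 * ‖p.1‖⁻¹) / r := by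
  have hm : ∀ t ∈ closedBall (0 : ℂ) r, (p.1 + t * 0, p.2 + t * 1) ∈ Om := fun t ht => by
    refine ⟨by simpa using hp.1, ?_⟩
    have := norm_add_le (p.2 - 1) t
    rw [mem_closedBall_zero_iff] at ht
    simp only [mul_one, add_sub_right_comm]
    linarith
  rw [← (hasDerivAt_line (Om.d_EE hp) 0 1).deriv]
  refine Complex.norm_deriv_le_of_forall_mem_sphere_norm_le hr
    (DifferentiableOn.diffContOnCl_ball (fun t ht => ((Om.d_EE (hm t ht)).comp t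
      (f := fun t : ℂ => (p.1 + t * 0, p.2 + t * 1)) (by fun_prop)).differentiableWithinAt)
      subset_rfl) fun t ht => ?_
  have h2 := norm_EE_le2 (hm t (sphere_subset_closedBall ht))
  have h3 := norm_add_le (p.2 - 1) t
  rw [mem_sphere_zero_iff_norm.1 ht] at h3
  simp only [mul_zero, add_zero, mul_one, add_sub_right_comm] at h2 ⊢
  have h4 : ‖p.2 - 1 + t‖ ^ 2 ≤ (‖p.2 - 1‖ + r) ^ 2 := by gcongr
  nlinarith [sq_nonneg (‖p.2 - 1‖ - r)]

/-- backward comparison for `y' = y + small` -/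
theorem bwd_le {a b : ℝ} {y y' : ℝ → ℂ} {F ψ ψ' : ℝ → ℝ}
    (hy : ∀ w ∈ Icc a b, HasDerivWithinAt y (y' w) (Icc a b) w)
    (hF : ∀ w ∈ Icc a b, ‖y' w - y w‖ ≤ ‖y w‖ / 4 + F w)
    (hψ : ∀ w ∈ Icc a b, HasDerivWithinAt ψ (ψ' w) (Icc a b) w)
    (hs : ∀ w ∈ Icc a b, ψ' w + F w < 3 / 4 * ψ w) (h0 : ‖y b‖ ≤ ψ b) :
    ∀ w ∈ Icc a b, ‖y w‖ ≤ ψ w := by
  have hm : MapsTo (fun u : ℝ => -u) (Icc (-b) (-a)) (Icc a b) := fun u hu =>
    ⟨by linarith [hu.2], by linarith [hu.1]⟩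
  have hn : ∀ u, HasDerivWithinAt (fun u : ℝ => -u) (-1) (Icc (-b) (-a)) u := fun u =>
    (hasDerivAt_neg u).hasDerivWithinAt
  have hz : ∀ u ∈ Icc (-b) (-a), HasDerivWithinAt (fun u : ℝ => (Real.exp u : ℂ) * y (-u))
      (-((Real.exp u : ℂ) * (y' (-u) - y (-u)))) (Icc (-b) (-a)) u := fun u hu => by
    refine (((Real.hasDerivAt_exp u).ofReal_comp.hasDerivWithinAt).mul
      ((hy _ (hm hu)).scomp u (hn u) hm)).congr_deriv ?_
    simp only [neg_smul, one_smul, Function.comp_apply]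
    ring
  have hB : ∀ u ∈ Icc (-b) (-a), HasDerivWithinAt (fun u : ℝ => Real.exp u * ψ (-u))
      (Real.exp u * (ψ (-u) - ψ' (-u))) (Icc (-b) (-a)) u := fun u hu => by
    refine (((Real.hasDerivAt_exp u).hasDerivWithinAt).mul
      ((hψ _ (hm hu)).scomp u (hn u) hm)).congr_deriv ?_
    simp only [neg_smul, one_smul, Function.comp_apply]
    ring
  have hI : ∀ u ∈ Ico (-b) (-a), Icc (-b) (-a) ∈ 𝓝[Ici u] u := fun u hu => Icc_mem_nhdsGE_of_mem hu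
  have hne : ∀ u : ℝ, ‖(Real.exp u : ℂ)‖ = Real.exp u := fun u => by
    rw [Complex.norm_real, Real.norm_of_nonneg (Real.exp_pos u).le]
  have key := image_norm_le_of_norm_deriv_right_lt_deriv_boundary'
    (fun u hu => (hz u hu).continuousWithinAt)
    (fun u hu => (hz u (Ico_subset_Icc_self hu)).mono_of_mem_nhdsWithin (hI u hu))
    (by rw [norm_mul, hne, neg_neg]; gcongr) (fun u hu => (hB u hu).continuousWithinAt)
    (fun u hu => (hB u (Ico_subset_Icc_self hu)).mono_of_mem_nhdsWithin (hI u hu))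
    (fun u hu heq => by
      have h1 := hm (Ico_subset_Icc_self hu)
      rw [norm_mul, hne] at heq
      have h2 := mul_left_cancel₀ (Real.exp_pos u).ne' heq
      rw [norm_neg, norm_mul, hne]
      refine mul_lt_mul_of_pos_left ?_ (Real.exp_pos u)
      linarith [hF _ h1, hs _ h1])
  intro w hw
  have := key (x := -w) ⟨by linarith [hw.2], by linarith [hw.1]⟩
  rw [norm_mul, hne, neg_neg] at this
  exact le_of_mul_le_mul_left this (Real.exp_pos _)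

end Vale.Agent.P218TP
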