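import Vale.Agent.P218TP.Rad2

/-! # The tip function near the tip -/

open Set Metric Filter Topology Complex

namespace Vale.Agent.P218TP

open P218IN

/-- admissible states -/
structure St (w : ℝ) (V Y : ℂ) : Prop where
  w_gt : 15000 < w
  re : 800 < V.re
  V_le : ‖V‖ ≤ 32 * w
  y_le : ‖Y - 1‖ ≤ 1 / 400

theorem Pw.st {w t : ℝ} {V Y γ : ℂ} (h : Pw w t V Y γ) : St w V Y := ⟨h.w_gt, h.re, h.V_le, h.y_le⟩

namespace St

variable {w : ℝ} {V Y : ℂ}

theorem norm_gt (h : St w V Y) : 800 < ‖V‖ := h.re.trans_le (Complex.re_le_norm V)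

theorem pw (h : St w V Y) : Pw w (2 * ‖V‖⁻¹) V Y (Complex.sqrt (1 - V / (4 * w ^ 2))) := by
  have h1 := h.norm_gt
  have h2 := h.w_gt
  have h3 : ‖V‖⁻¹ ≤ 800⁻¹ := inv_anti₀ (by norm_num) h1.le
  have h4 : 0 < ‖V‖⁻¹ := by positivity
  refine ⟨h2, by positivity, by linarith, by linarith, ?_, ?_, h.V_le, h.re, h.y_le, sqrt_sq' _,
    sqrt_re_nonneg _⟩
  · rw [mul_left_comm, mul_inv_cancel₀ (by linarith), mul_one]
  · rw [← mul_assoc, ← div_eq_mul_inv, inv_eq_one_div, div_le_div_iff₀ (by linarith) (by linarith)]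
    linarith [h.V_le]

theorem om (h : St w V Y) : (V, Y) ∈ Om := h.pw.om

theorem half_sub (h : St w V Y) : ‖V / 2 - Hh (V, Y)‖ ≤ Real.log ‖V‖ / 2 + 3 := by
  have h1 := norm_ell_le (w := 1) le_rfl h.om
  rw [ell, Real.log_one, ofReal_zero, zero_sub, neg_add_eq_sub, norm_sub_rev] at h1
  linarith

theorem tip_id (h : St w V Y) (hg : gT w V Y ≠ 0) {σ : ℂ}
    (hσ : σ = w + Real.log w - (gT w V Y)⁻¹) :
    V * (w + (V / 2 - Hh (V, Y) - σ)) = 2 * w * ((V / 2 - Hh (V, Y) - σ) + 1) := by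
  have hα : alL w V ≠ 0 := fun h0 => hg (by rw [gT, h0, zero_div])
  have h1 : alL w V * (gT w V Y)⁻¹ = Xi w V Y := by
    rw [gT, inv_div]
    field_simp
  have hw := h.pw.w_ne
  rw [Xi, ell, alL] at h1
  rw [hσ]
  generalize (gT w V Y)⁻¹ = Z at h1 ⊢
  field_simp at h1
  linear_combination -h1 / 2

/-- if the tip is close then `V` is bounded and `Hh (V, Y)` is the distance to the tip -/
theorem upper (h : St w V Y) (hg : gT w V Y ≠ 0) {σ : ℂ}
    (hσ : σ = w + Real.log w - (gT w V Y)⁻¹) {M : ℝ} (hM : ‖σ‖ ≤ M) (hM' : M ≤ w / 4) :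
    ‖V‖ ≤ 8 * M + 40 ∧ ‖Hh (V, Y) - (1 - σ)‖ ≤ (8 * M + 40) * (2 * M + 9) / w := by
  have h1 := h.tip_id hg hσ
  have h2 := h.half_sub
  have h3 := h.norm_gt
  have h4 := h.w_gt
  have nw := h.pw.nw
  have hw := h.pw.w_ne
  set D := V / 2 - Hh (V, Y) - σ with hD
  have d1 : ‖D‖ ≤ M + Real.log ‖V‖ / 2 + 3 := by linarith [norm_sub_le (V / 2 - Hh (V, Y)) σ]
  have d2 := log_le_lin (x := ‖V‖) (c := 10000) (by linarith) (by norm_num)
  have d3 : w / 2 ≤ ‖(w : ℂ) + D‖ := by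
    have := norm_sub_le ((w : ℂ) + D) D
    rw [add_sub_cancel_right, nw] at this
    linarith [log_ten_thousand, h.V_le]
  have d4 := congrArg norm h1
  have d5 := norm_add_le D 1
  rw [norm_mul, norm_mul, norm_mul, nw, Complex.norm_ofNat] at d4
  rw [norm_one] at d5
  have d6 : ‖V‖ ≤ 4 * (‖D‖ + 1) := by
    refine le_of_mul_le_mul_right ?_ (show 0 < w / 2 by linarith)
    nlinarith [mul_le_mul_of_nonneg_left d3 (norm_nonneg V)]
  have d7 := log_le_quarter (x := ‖V‖) (by linarith)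
  have d8 : ‖V‖ ≤ 8 * M + 40 := by linarith
  refine ⟨d8, ?_⟩
  have e : Hh (V, Y) - (1 - σ) = -(V * D / (2 * w)) := by
    field_simp
    linear_combination h1 - 2 * w * hD
  rw [e, norm_neg, norm_div, norm_mul, norm_mul, nw, Complex.norm_ofNat]
  have d9 : 0 ≤ M := (norm_nonneg σ).trans hM
  exact div_le_div₀ (by positivity) (mul_le_mul d8 (by linarith) (norm_nonneg _) (by positivity))
    (by linarith) (by linarith)

/-- if `V` is not large then the tip is close -/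
theorem lower (h : St w V Y) (hV : ‖V‖ ≤ w / 2) :
    (2 * w)⁻¹ ≤ ‖gT w V Y‖ ∧ ‖w + Real.log w - (gT w V Y)⁻¹‖ ≤ ‖V‖ := by
  have h3 := h.norm_gt
  have h4 := h.w_gt
  have nw := h.pw.nw
  have n1 : 3 / 2 * w ≤ ‖2 * (w : ℂ) - V‖ := by
    have := norm_sub_norm_le (2 * (w : ℂ)) V
    rw [norm_mul, nw, Complex.norm_ofNat] at this
    linarith
  have n2 : ‖Xi w V Y‖ ≤ 5 / 4 := by
    have := norm_add_le (Xi w V Y - 1) 1
    rw [sub_add_cancel, norm_one] at this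
    linarith [h.pw.Xi_sub]
  have n3 : (2 * w)⁻¹ ≤ ‖gT w V Y‖ := by
    rw [gT, norm_div, le_div_iff₀ (by linarith [h.pw.Xi_ge]), alL, norm_div, norm_mul, norm_pow, nw,
      Complex.norm_ofNat, le_div_iff₀ (by positivity)]
    calc (2 * w)⁻¹ * ‖Xi w V Y‖ * (2 * w ^ 2) = ‖Xi w V Y‖ * w := by field_simp
      _ ≤ _ := by nlinarith
  refine ⟨n3, ?_⟩
  have hg : gT w V Y ≠ 0 := norm_pos_iff.1 (lt_of_lt_of_le (by positivity) n3)
  have h1 := h.tip_id hg rfl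
  have h2 := h.half_sub
  set σ := w + Real.log w - (gT w V Y)⁻¹
  set D := V / 2 - Hh (V, Y) - σ with hD
  have e : D * (2 * w - V) = w * (V - 2) := by linear_combination -h1
  have d4 := congrArg norm e
  rw [norm_mul, norm_mul, nw] at d4
  have d5 := norm_sub_le V 2
  rw [Complex.norm_ofNat] at d5
  have d6 : ‖D‖ ≤ 2 / 3 * (‖V‖ + 2) := by
    refine le_of_mul_le_mul_right ?_ (show 0 < 3 / 2 * w by linarith)
    nlinarith [mul_le_mul_of_nonneg_left n1 (norm_nonneg D)]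
  have d7 := log_le_quarter (x := ‖V‖) (by linarith)
  have d8 := norm_sub_le (V / 2 - Hh (V, Y)) D
  rw [show V / 2 - Hh (V, Y) - D = σ by rw [hD]; ring] at d8
  linarith

end St

theorem Hh_lip {V Y Y' : ℂ} (hV : 800 < V.re) (hY : ‖Y - 1‖ ≤ 1 / 400) (hY' : ‖Y' - 1‖ ≤ 1 / 400) :
    ‖Hh (V, Y) - Hh (V, Y')‖ ≤ 51 * ‖Y - Y'‖ := by
  have hm : ∀ y ∈ closedBall (1 : ℂ) (1 / 400), (V, y) ∈ Om := fun y hy =>
    ⟨by linarith, by linarith [mem_closedBall_iff_norm.1 hy]⟩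
  refine (convex_closedBall (1 : ℂ) (1 / 400)).norm_image_sub_le_of_norm_hasDerivWithin_le
    (f := fun y => Hh (V, y)) (f' := fun y => fderiv ℂ Hh (V, y) (0, 1))
    (fun y hy => ((Om.d_Hh (hm y hy)).hasFDerivAt.comp_hasDerivAt y
      ((hasDerivAt_const y V).prodMk (hasDerivAt_id y))).hasDerivWithinAt) (fun y hy => ?_)
    (mem_closedBall_iff_norm.2 hY') (mem_closedBall_iff_norm.2 hY)
  have h1 := mem_closedBall_iff_norm.1 hy
  have h2 := norm_fderiv_EE_snd (hm y hy) h1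
  rw [fderiv_Hh (hm y hy)]
  simp only [zero_div, sub_self, zero_add] at h2 ⊢
  have b1 : ‖1 / (2 * y)‖ ≤ 3 / 5 := by
    have := re_ge_of_norm_sub_one_le h1
    have := Complex.re_le_norm y
    rw [norm_div, norm_mul, norm_one, Complex.norm_ofNat, div_le_iff₀ (by linarith)]
    linarith
  have b2 : ‖V‖⁻¹ ≤ 800⁻¹ := inv_anti₀ (by norm_num) (hV.le.trans (Complex.re_le_norm V))
  linarith [norm_add_le (1 / (2 * y)) (fderiv ℂ EE (V, y) (0, 1))]

theorem norm_RT_le' {T : ℂ} (hT : 202 ≤ T.re) : ‖RT T‖ ≤ 16 := by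
  have h1 := norm_RT_le hT
  have h2 : (1 + ‖T‖) ^ (-(3 / 2) : ℝ) ≤ 1 :=
    Real.rpow_le_one_of_one_le_of_nonpos (by linarith [norm_nonneg T]) (by norm_num)
  linarith

theorem RT_lip {T T' : ℂ} (hT : 203 < T.re) (hT' : 203 < T'.re) :
    ‖RT T - RT T'‖ ≤ 16 * ‖T - T'‖ := by
  refine (convex_halfSpace_re_gt 203).norm_image_sub_le_of_norm_hasDerivWithin_le
    (f' := deriv RT) (fun z hz => (differentiableAt_RT (lt_trans (by norm_num)
      hz)).hasDerivAt.hasDerivWithinAt) (fun z hz => ?_) hT' hT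
  have hm : ∀ t ∈ closedBall z 1, 202 < t.re := fun t ht => by
    have h1 := (abs_le.1 ((Complex.abs_re_le_norm (t - z)).trans (mem_closedBall_iff_norm.1 ht))).1
    have h2 : 203 < z.re := hz
    simp only [sub_re] at h1
    linarith
  simpa using Complex.norm_deriv_le_of_forall_mem_sphere_norm_le (c := z) (R := 1) (C := 16) one_pos
    (DifferentiableOn.diffContOnCl_ball
      (fun t ht => (differentiableAt_RT (hm t ht)).differentiableWithinAt) subset_rfl)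
    fun t ht => norm_RT_le' (hm t (sphere_subset_closedBall ht)).le

theorem RT_Hb {V : ℂ} (hV : 401 < V.re) (hT : 202 ≤ (Hb V).re) : RT (Hb V) = Rr V := by
  have := norm_sub_Hinv_le hV hT
  rw [sub_self, norm_zero, mul_zero, norm_le_zero_iff, sub_eq_zero] at this
  rw [RT, ← this]

theorem rpow_le_of_le {x s : ℝ} (hs : 0 ≤ s) (h : 1 + s ≤ 2 * x) :
    x ^ (-(3 / 2) : ℝ) ≤ 4 * (1 + s) ^ (-(3 / 2) : ℝ) := by
  have h2 : x ^ (-(3 / 2) : ℝ) ≤ ((1 + s) / 2) ^ (-(3 / 2) : ℝ) :=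
    Real.rpow_le_rpow_of_nonpos (by positivity) (by linarith) (by norm_num)
  have h3 : (2 : ℝ) ^ (3 / 2 : ℝ) ≤ 2 ^ (2 : ℝ) :=
    Real.rpow_le_rpow_of_exponent_le (by norm_num) (by norm_num)
  rw [Real.div_rpow (by positivity) (by norm_num), Real.rpow_neg (x := 2) (by norm_num),
    div_inv_eq_mul, mul_comm] at h2
  refine h2.trans ?_
  gcongr
  simpa [show (2 : ℝ) ^ 2 = 4 by norm_num] using h3

theorem norm_inv_sub_inv_le {a g : ℂ} {L e : ℝ} (hL : 0 < L) (ha : L⁻¹ ≤ ‖a‖) (he : ‖a - g‖ ≤ e)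
    (he' : e ≤ (2 * L)⁻¹) : g ≠ 0 ∧ ‖a⁻¹ - g⁻¹‖ ≤ 2 * L ^ 2 * e := by
  have h1 : (2 * L)⁻¹ ≤ ‖g‖ := by
    have := norm_sub_norm_le a g
    rw [mul_inv] at he' ⊢
    linarith
  have h2 : 0 < ‖g‖ := lt_of_lt_of_le (by positivity) h1
  have h3 : 0 < ‖a‖ := lt_of_lt_of_le (by positivity) ha
  refine ⟨norm_pos_iff.1 h2, ?_⟩
  rw [inv_sub_inv (norm_pos_iff.1 h3) (norm_pos_iff.1 h2), norm_div, norm_mul, norm_sub_rev,
    div_le_iff₀ (by positivity)]
  calc ‖a - g‖ ≤ e := he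
    _ = 2 * L ^ 2 * e * (L⁻¹ * (2 * L)⁻¹) := by field_simp
    _ ≤ _ := by
      have := (norm_nonneg _).trans he
      gcongr

theorem log_sub_le {W w : ℝ} (hW : 0 < W) (h1 : W ≤ w) (h2 : w ≤ W + 1) :
    |Real.log w - Real.log W| ≤ W⁻¹ := by
  rw [abs_of_nonneg (sub_nonneg.2 (Real.log_le_log hW h1)), ← Real.log_div (by linarith) hW.ne']
  refine (Real.log_le_sub_one_of_pos (by have : 0 < w := by linarith
                                         positivity)).trans ?_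
  rw [div_sub_one hW.ne', div_eq_mul_inv]
  exact mul_le_of_le_one_left (by positivity) (by linarith)

end Vale.Agent.P218TP
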